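import Vale.Agent.P154.Avg10Data

/-! Averages over permutations, q = 3, weight at most 10 (generated). -/

set_option linter.unusedSimpArgs false
set_option linter.style.longLine false

namespace Vale.Agent.P154.A10

open Finset Vale.Agent.P154

lemma tr_0 (x : Fin 3 → ℝ) : Msym ![0, 0, 0] x
    = evL t0 (evec x) := by
  rw [ms_0]
  simp only [t0, evec, evL_cons, evL_nil_left, Int.cast_zero, Int.cast_one, zero_mul, zero_add, add_zero]
  push_cast
  ring

lemma vr_0 (x : Fin 3 → ℝ) : s31 x ^ 10 * Msym ![0, 0, 0] x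
    = evL v0 (vvec x) := by
  rw [ms_0]
  simp only [v0, vvec, evL_cons, evL_nil_left, Int.cast_zero, Int.cast_one, zero_mul, zero_add, add_zero]
  push_cast
  ring

lemma tr_1 (x : Fin 3 → ℝ) : Msym ![1, 0, 0] x
    = evL t1 (evec x) := by
  rw [ms_1]
  simp only [t1, evec, evL_cons, evL_nil_left, Int.cast_zero, Int.cast_one, zero_mul, zero_add, add_zero]
  push_cast
  ring

lemma vr_1 (x : Fin 3 → ℝ) : s31 x ^ 9 * Msym ![1, 0, 0] x
    = evL v1 (vvec x) := by
  rw [ms_1]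
  simp only [v1, vvec, evL_cons, evL_nil_left, Int.cast_zero, Int.cast_one, zero_mul, zero_add, add_zero]
  push_cast
  ring

lemma tr_2 (x : Fin 3 → ℝ) : Msym ![2, 0, 0] x
    = evL t2 (evec x) := by
  rw [ms_2]
  simp only [t2, evec, evL_cons, evL_nil_left, Int.cast_zero, Int.cast_one, zero_mul, zero_add, add_zero]
  push_cast
  ring

lemma vr_2 (x : Fin 3 → ℝ) : s31 x ^ 8 * Msym ![2, 0, 0] x
    = evL v2 (vvec x) := by
  rw [ms_2]
  simp only [v2, vvec, evL_cons, evL_nil_left, Int.cast_zero, Int.cast_one, zero_mul, zero_add, add_zero]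
  push_cast
  ring

lemma tr_3 (x : Fin 3 → ℝ) : Msym ![1, 1, 0] x
    = evL t3 (evec x) := by
  rw [ms_3]
  simp only [t3, evec, evL_cons, evL_nil_left, Int.cast_zero, Int.cast_one, zero_mul, zero_add, add_zero]
  push_cast
  ring

lemma vr_3 (x : Fin 3 → ℝ) : s31 x ^ 8 * Msym ![1, 1, 0] x
    = evL v3 (vvec x) := by
  rw [ms_3]
  simp only [v3, vvec, evL_cons, evL_nil_left, Int.cast_zero, Int.cast_one, zero_mul, zero_add, add_zero]
  push_cast
  ring

lemma tr_4 (x : Fin 3 → ℝ) : Msym ![3, 0, 0] x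
    = evL t4 (evec x) := by
  rw [ms_4]
  simp only [t4, evec, evL_cons, evL_nil_left, Int.cast_zero, Int.cast_one, zero_mul, zero_add, add_zero]
  push_cast
  ring

lemma vr_4 (x : Fin 3 → ℝ) : s31 x ^ 7 * Msym ![3, 0, 0] x
    = evL v4 (vvec x) := by
  rw [ms_4]
  simp only [v4, vvec, evL_cons, evL_nil_left, Int.cast_zero, Int.cast_one, zero_mul, zero_add, add_zero]
  push_cast
  ring

lemma tr_5 (x : Fin 3 → ℝ) : Msym ![2, 1, 0] x
    = evL t5 (evec x) := by
  rw [ms_5]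
  simp only [t5, evec, evL_cons, evL_nil_left, Int.cast_zero, Int.cast_one, zero_mul, zero_add, add_zero]
  push_cast
  ring

lemma vr_5 (x : Fin 3 → ℝ) : s31 x ^ 7 * Msym ![2, 1, 0] x
    = evL v5 (vvec x) := by
  rw [ms_5]
  simp only [v5, vvec, evL_cons, evL_nil_left, Int.cast_zero, Int.cast_one, zero_mul, zero_add, add_zero]
  push_cast
  ring

lemma tr_6 (x : Fin 3 → ℝ) : Msym ![1, 1, 1] x
    = evL t6 (evec x) := by
  rw [ms_6]
  simp only [t6, evec, evL_cons, evL_nil_left, Int.cast_zero, Int.cast_one, zero_mul, zero_add, add_zero]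
  push_cast
  ring

lemma vr_6 (x : Fin 3 → ℝ) : s31 x ^ 7 * Msym ![1, 1, 1] x
    = evL v6 (vvec x) := by
  rw [ms_6]
  simp only [v6, vvec, evL_cons, evL_nil_left, Int.cast_zero, Int.cast_one, zero_mul, zero_add, add_zero]
  push_cast
  ring

lemma tr_7 (x : Fin 3 → ℝ) : Msym ![4, 0, 0] x
    = evL t7 (evec x) := by
  rw [ms_7]
  simp only [t7, evec, evL_cons, evL_nil_left, Int.cast_zero, Int.cast_one, zero_mul, zero_add, add_zero]
  push_cast
  ring

lemma vr_7 (x : Fin 3 → ℝ) : s31 x ^ 6 * Msym ![4, 0, 0] x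
    = evL v7 (vvec x) := by
  rw [ms_7]
  simp only [v7, vvec, evL_cons, evL_nil_left, Int.cast_zero, Int.cast_one, zero_mul, zero_add, add_zero]
  push_cast
  ring

lemma tr_8 (x : Fin 3 → ℝ) : Msym ![3, 1, 0] x
    = evL t8 (evec x) := by
  rw [ms_8]
  simp only [t8, evec, evL_cons, evL_nil_left, Int.cast_zero, Int.cast_one, zero_mul, zero_add, add_zero]
  push_cast
  ring

lemma vr_8 (x : Fin 3 → ℝ) : s31 x ^ 6 * Msym ![3, 1, 0] x
    = evL v8 (vvec x) := by
  rw [ms_8]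
  simp only [v8, vvec, evL_cons, evL_nil_left, Int.cast_zero, Int.cast_one, zero_mul, zero_add, add_zero]
  push_cast
  ring

lemma tr_9 (x : Fin 3 → ℝ) : Msym ![2, 2, 0] x
    = evL t9 (evec x) := by
  rw [ms_9]
  simp only [t9, evec, evL_cons, evL_nil_left, Int.cast_zero, Int.cast_one, zero_mul, zero_add, add_zero]
  push_cast
  ring

lemma vr_9 (x : Fin 3 → ℝ) : s31 x ^ 6 * Msym ![2, 2, 0] x
    = evL v9 (vvec x) := by
  rw [ms_9]
  simp only [v9, vvec, evL_cons, evL_nil_left, Int.cast_zero, Int.cast_one, zero_mul, zero_add, add_zero]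
  push_cast
  ring

lemma tr_10 (x : Fin 3 → ℝ) : Msym ![2, 1, 1] x
    = evL t10 (evec x) := by
  rw [ms_10]
  simp only [t10, evec, evL_cons, evL_nil_left, Int.cast_zero, Int.cast_one, zero_mul, zero_add, add_zero]
  push_cast
  ring

lemma vr_10 (x : Fin 3 → ℝ) : s31 x ^ 6 * Msym ![2, 1, 1] x
    = evL v10 (vvec x) := by
  rw [ms_10]
  simp only [v10, vvec, evL_cons, evL_nil_left, Int.cast_zero, Int.cast_one, zero_mul, zero_add, add_zero]
  push_cast
  ring

lemma tr_11 (x : Fin 3 → ℝ) : Msym ![5, 0, 0] x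
    = evL t11 (evec x) := by
  rw [ms_11]
  simp only [t11, evec, evL_cons, evL_nil_left, Int.cast_zero, Int.cast_one, zero_mul, zero_add, add_zero]
  push_cast
  ring

lemma vr_11 (x : Fin 3 → ℝ) : s31 x ^ 5 * Msym ![5, 0, 0] x
    = evL v11 (vvec x) := by
  rw [ms_11]
  simp only [v11, vvec, evL_cons, evL_nil_left, Int.cast_zero, Int.cast_one, zero_mul, zero_add, add_zero]
  push_cast
  ring

lemma tr_12 (x : Fin 3 → ℝ) : Msym ![4, 1, 0] x
    = evL t12 (evec x) := by
  rw [ms_12]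
  simp only [t12, evec, evL_cons, evL_nil_left, Int.cast_zero, Int.cast_one, zero_mul, zero_add, add_zero]
  push_cast
  ring

lemma vr_12 (x : Fin 3 → ℝ) : s31 x ^ 5 * Msym ![4, 1, 0] x
    = evL v12 (vvec x) := by
  rw [ms_12]
  simp only [v12, vvec, evL_cons, evL_nil_left, Int.cast_zero, Int.cast_one, zero_mul, zero_add, add_zero]
  push_cast
  ring

lemma tr_13 (x : Fin 3 → ℝ) : Msym ![3, 2, 0] x
    = evL t13 (evec x) := by
  rw [ms_13]
  simp only [t13, evec, evL_cons, evL_nil_left, Int.cast_zero, Int.cast_one, zero_mul, zero_add, add_zero]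
  push_cast
  ring

lemma vr_13 (x : Fin 3 → ℝ) : s31 x ^ 5 * Msym ![3, 2, 0] x
    = evL v13 (vvec x) := by
  rw [ms_13]
  simp only [v13, vvec, evL_cons, evL_nil_left, Int.cast_zero, Int.cast_one, zero_mul, zero_add, add_zero]
  push_cast
  ring

lemma tr_14 (x : Fin 3 → ℝ) : Msym ![3, 1, 1] x
    = evL t14 (evec x) := by
  rw [ms_14]
  simp only [t14, evec, evL_cons, evL_nil_left, Int.cast_zero, Int.cast_one, zero_mul, zero_add, add_zero]
  push_cast
  ring

lemma vr_14 (x : Fin 3 → ℝ) : s31 x ^ 5 * Msym ![3, 1, 1] x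
    = evL v14 (vvec x) := by
  rw [ms_14]
  simp only [v14, vvec, evL_cons, evL_nil_left, Int.cast_zero, Int.cast_one, zero_mul, zero_add, add_zero]
  push_cast
  ring

lemma tr_15 (x : Fin 3 → ℝ) : Msym ![2, 2, 1] x
    = evL t15 (evec x) := by
  rw [ms_15]
  simp only [t15, evec, evL_cons, evL_nil_left, Int.cast_zero, Int.cast_one, zero_mul, zero_add, add_zero]
  push_cast
  ring

lemma vr_15 (x : Fin 3 → ℝ) : s31 x ^ 5 * Msym ![2, 2, 1] x
    = evL v15 (vvec x) := by
  rw [ms_15]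
  simp only [v15, vvec, evL_cons, evL_nil_left, Int.cast_zero, Int.cast_one, zero_mul, zero_add, add_zero]
  push_cast
  ring

lemma tr_16 (x : Fin 3 → ℝ) : Msym ![6, 0, 0] x
    = evL t16 (evec x) := by
  rw [ms_16]
  simp only [t16, evec, evL_cons, evL_nil_left, Int.cast_zero, Int.cast_one, zero_mul, zero_add, add_zero]
  push_cast
  ring

lemma vr_16 (x : Fin 3 → ℝ) : s31 x ^ 4 * Msym ![6, 0, 0] x
    = evL v16 (vvec x) := by
  rw [ms_16]
  simp only [v16, vvec, evL_cons, evL_nil_left, Int.cast_zero, Int.cast_one, zero_mul, zero_add, add_zero]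
  push_cast
  ring

lemma tr_17 (x : Fin 3 → ℝ) : Msym ![5, 1, 0] x
    = evL t17 (evec x) := by
  rw [ms_17]
  simp only [t17, evec, evL_cons, evL_nil_left, Int.cast_zero, Int.cast_one, zero_mul, zero_add, add_zero]
  push_cast
  ring

lemma vr_17 (x : Fin 3 → ℝ) : s31 x ^ 4 * Msym ![5, 1, 0] x
    = evL v17 (vvec x) := by
  rw [ms_17]
  simp only [v17, vvec, evL_cons, evL_nil_left, Int.cast_zero, Int.cast_one, zero_mul, zero_add, add_zero]
  push_cast
  ring

lemma tr_18 (x : Fin 3 → ℝ) : Msym ![4, 2, 0] x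
    = evL t18 (evec x) := by
  rw [ms_18]
  simp only [t18, evec, evL_cons, evL_nil_left, Int.cast_zero, Int.cast_one, zero_mul, zero_add, add_zero]
  push_cast
  ring

lemma vr_18 (x : Fin 3 → ℝ) : s31 x ^ 4 * Msym ![4, 2, 0] x
    = evL v18 (vvec x) := by
  rw [ms_18]
  simp only [v18, vvec, evL_cons, evL_nil_left, Int.cast_zero, Int.cast_one, zero_mul, zero_add, add_zero]
  push_cast
  ring

lemma tr_19 (x : Fin 3 → ℝ) : Msym ![4, 1, 1] x
    = evL t19 (evec x) := by
  rw [ms_19]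
  simp only [t19, evec, evL_cons, evL_nil_left, Int.cast_zero, Int.cast_one, zero_mul, zero_add, add_zero]
  push_cast
  ring

lemma vr_19 (x : Fin 3 → ℝ) : s31 x ^ 4 * Msym ![4, 1, 1] x
    = evL v19 (vvec x) := by
  rw [ms_19]
  simp only [v19, vvec, evL_cons, evL_nil_left, Int.cast_zero, Int.cast_one, zero_mul, zero_add, add_zero]
  push_cast
  ring

lemma tr_20 (x : Fin 3 → ℝ) : Msym ![3, 3, 0] x
    = evL t20 (evec x) := by
  rw [ms_20]
  simp only [t20, evec, evL_cons, evL_nil_left, Int.cast_zero, Int.cast_one, zero_mul, zero_add, add_zero]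
  push_cast
  ring

lemma vr_20 (x : Fin 3 → ℝ) : s31 x ^ 4 * Msym ![3, 3, 0] x
    = evL v20 (vvec x) := by
  rw [ms_20]
  simp only [v20, vvec, evL_cons, evL_nil_left, Int.cast_zero, Int.cast_one, zero_mul, zero_add, add_zero]
  push_cast
  ring

lemma tr_21 (x : Fin 3 → ℝ) : Msym ![3, 2, 1] x
    = evL t21 (evec x) := by
  rw [ms_21]
  simp only [t21, evec, evL_cons, evL_nil_left, Int.cast_zero, Int.cast_one, zero_mul, zero_add, add_zero]
  push_cast
  ring

lemma vr_21 (x : Fin 3 → ℝ) : s31 x ^ 4 * Msym ![3, 2, 1] x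
    = evL v21 (vvec x) := by
  rw [ms_21]
  simp only [v21, vvec, evL_cons, evL_nil_left, Int.cast_zero, Int.cast_one, zero_mul, zero_add, add_zero]
  push_cast
  ring

lemma tr_22 (x : Fin 3 → ℝ) : Msym ![2, 2, 2] x
    = evL t22 (evec x) := by
  rw [ms_22]
  simp only [t22, evec, evL_cons, evL_nil_left, Int.cast_zero, Int.cast_one, zero_mul, zero_add, add_zero]
  push_cast
  ring

lemma vr_22 (x : Fin 3 → ℝ) : s31 x ^ 4 * Msym ![2, 2, 2] x
    = evL v22 (vvec x) := by
  rw [ms_22]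
  simp only [v22, vvec, evL_cons, evL_nil_left, Int.cast_zero, Int.cast_one, zero_mul, zero_add, add_zero]
  push_cast
  ring

lemma tr_23 (x : Fin 3 → ℝ) : Msym ![7, 0, 0] x
    = evL t23 (evec x) := by
  rw [ms_23]
  simp only [t23, evec, evL_cons, evL_nil_left, Int.cast_zero, Int.cast_one, zero_mul, zero_add, add_zero]
  push_cast
  ring

lemma vr_23 (x : Fin 3 → ℝ) : s31 x ^ 3 * Msym ![7, 0, 0] x
    = evL v23 (vvec x) := by
  rw [ms_23]
  simp only [v23, vvec, evL_cons, evL_nil_left, Int.cast_zero, Int.cast_one, zero_mul, zero_add, add_zero]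
  push_cast
  ring

lemma tr_24 (x : Fin 3 → ℝ) : Msym ![6, 1, 0] x
    = evL t24 (evec x) := by
  rw [ms_24]
  simp only [t24, evec, evL_cons, evL_nil_left, Int.cast_zero, Int.cast_one, zero_mul, zero_add, add_zero]
  push_cast
  ring

lemma vr_24 (x : Fin 3 → ℝ) : s31 x ^ 3 * Msym ![6, 1, 0] x
    = evL v24 (vvec x) := by
  rw [ms_24]
  simp only [v24, vvec, evL_cons, evL_nil_left, Int.cast_zero, Int.cast_one, zero_mul, zero_add, add_zero]
  push_cast
  ring

lemma tr_25 (x : Fin 3 → ℝ) : Msym ![5, 2, 0] x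
    = evL t25 (evec x) := by
  rw [ms_25]
  simp only [t25, evec, evL_cons, evL_nil_left, Int.cast_zero, Int.cast_one, zero_mul, zero_add, add_zero]
  push_cast
  ring

lemma vr_25 (x : Fin 3 → ℝ) : s31 x ^ 3 * Msym ![5, 2, 0] x
    = evL v25 (vvec x) := by
  rw [ms_25]
  simp only [v25, vvec, evL_cons, evL_nil_left, Int.cast_zero, Int.cast_one, zero_mul, zero_add, add_zero]
  push_cast
  ring

lemma tr_26 (x : Fin 3 → ℝ) : Msym ![5, 1, 1] x
    = evL t26 (evec x) := by
  rw [ms_26]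
  simp only [t26, evec, evL_cons, evL_nil_left, Int.cast_zero, Int.cast_one, zero_mul, zero_add, add_zero]
  push_cast
  ring

lemma vr_26 (x : Fin 3 → ℝ) : s31 x ^ 3 * Msym ![5, 1, 1] x
    = evL v26 (vvec x) := by
  rw [ms_26]
  simp only [v26, vvec, evL_cons, evL_nil_left, Int.cast_zero, Int.cast_one, zero_mul, zero_add, add_zero]
  push_cast
  ring

lemma tr_27 (x : Fin 3 → ℝ) : Msym ![4, 3, 0] x
    = evL t27 (evec x) := by
  rw [ms_27]
  simp only [t27, evec, evL_cons, evL_nil_left, Int.cast_zero, Int.cast_one, zero_mul, zero_add, add_zero]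
  push_cast
  ring

lemma vr_27 (x : Fin 3 → ℝ) : s31 x ^ 3 * Msym ![4, 3, 0] x
    = evL v27 (vvec x) := by
  rw [ms_27]
  simp only [v27, vvec, evL_cons, evL_nil_left, Int.cast_zero, Int.cast_one, zero_mul, zero_add, add_zero]
  push_cast
  ring

lemma tr_28 (x : Fin 3 → ℝ) : Msym ![4, 2, 1] x
    = evL t28 (evec x) := by
  rw [ms_28]
  simp only [t28, evec, evL_cons, evL_nil_left, Int.cast_zero, Int.cast_one, zero_mul, zero_add, add_zero]
  push_cast
  ring

lemma vr_28 (x : Fin 3 → ℝ) : s31 x ^ 3 * Msym ![4, 2, 1] x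
    = evL v28 (vvec x) := by
  rw [ms_28]
  simp only [v28, vvec, evL_cons, evL_nil_left, Int.cast_zero, Int.cast_one, zero_mul, zero_add, add_zero]
  push_cast
  ring

lemma tr_29 (x : Fin 3 → ℝ) : Msym ![3, 3, 1] x
    = evL t29 (evec x) := by
  rw [ms_29]
  simp only [t29, evec, evL_cons, evL_nil_left, Int.cast_zero, Int.cast_one, zero_mul, zero_add, add_zero]
  push_cast
  ring

lemma vr_29 (x : Fin 3 → ℝ) : s31 x ^ 3 * Msym ![3, 3, 1] x
    = evL v29 (vvec x) := by
  rw [ms_29]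
  simp only [v29, vvec, evL_cons, evL_nil_left, Int.cast_zero, Int.cast_one, zero_mul, zero_add, add_zero]
  push_cast
  ring

lemma tr_30 (x : Fin 3 → ℝ) : Msym ![3, 2, 2] x
    = evL t30 (evec x) := by
  rw [ms_30]
  simp only [t30, evec, evL_cons, evL_nil_left, Int.cast_zero, Int.cast_one, zero_mul, zero_add, add_zero]
  push_cast
  ring

lemma vr_30 (x : Fin 3 → ℝ) : s31 x ^ 3 * Msym ![3, 2, 2] x
    = evL v30 (vvec x) := by
  rw [ms_30]
  simp only [v30, vvec, evL_cons, evL_nil_left, Int.cast_zero, Int.cast_one, zero_mul, zero_add, add_zero]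
  push_cast
  ring

lemma tr_31 (x : Fin 3 → ℝ) : Msym ![8, 0, 0] x
    = evL t31 (evec x) := by
  rw [ms_31]
  simp only [t31, evec, evL_cons, evL_nil_left, Int.cast_zero, Int.cast_one, zero_mul, zero_add, add_zero]
  push_cast
  ring

lemma vr_31 (x : Fin 3 → ℝ) : s31 x ^ 2 * Msym ![8, 0, 0] x
    = evL v31 (vvec x) := by
  rw [ms_31]
  simp only [v31, vvec, evL_cons, evL_nil_left, Int.cast_zero, Int.cast_one, zero_mul, zero_add, add_zero]
  push_cast
  ring

lemma tr_32 (x : Fin 3 → ℝ) : Msym ![7, 1, 0] x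
    = evL t32 (evec x) := by
  rw [ms_32]
  simp only [t32, evec, evL_cons, evL_nil_left, Int.cast_zero, Int.cast_one, zero_mul, zero_add, add_zero]
  push_cast
  ring

lemma vr_32 (x : Fin 3 → ℝ) : s31 x ^ 2 * Msym ![7, 1, 0] x
    = evL v32 (vvec x) := by
  rw [ms_32]
  simp only [v32, vvec, evL_cons, evL_nil_left, Int.cast_zero, Int.cast_one, zero_mul, zero_add, add_zero]
  push_cast
  ring

lemma tr_33 (x : Fin 3 → ℝ) : Msym ![6, 2, 0] x
    = evL t33 (evec x) := by
  rw [ms_33]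
  simp only [t33, evec, evL_cons, evL_nil_left, Int.cast_zero, Int.cast_one, zero_mul, zero_add, add_zero]
  push_cast
  ring

lemma vr_33 (x : Fin 3 → ℝ) : s31 x ^ 2 * Msym ![6, 2, 0] x
    = evL v33 (vvec x) := by
  rw [ms_33]
  simp only [v33, vvec, evL_cons, evL_nil_left, Int.cast_zero, Int.cast_one, zero_mul, zero_add, add_zero]
  push_cast
  ring

lemma tr_34 (x : Fin 3 → ℝ) : Msym ![6, 1, 1] x
    = evL t34 (evec x) := by
  rw [ms_34]
  simp only [t34, evec, evL_cons, evL_nil_left, Int.cast_zero, Int.cast_one, zero_mul, zero_add, add_zero]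
  push_cast
  ring

lemma vr_34 (x : Fin 3 → ℝ) : s31 x ^ 2 * Msym ![6, 1, 1] x
    = evL v34 (vvec x) := by
  rw [ms_34]
  simp only [v34, vvec, evL_cons, evL_nil_left, Int.cast_zero, Int.cast_one, zero_mul, zero_add, add_zero]
  push_cast
  ring

lemma tr_35 (x : Fin 3 → ℝ) : Msym ![5, 3, 0] x
    = evL t35 (evec x) := by
  rw [ms_35]
  simp only [t35, evec, evL_cons, evL_nil_left, Int.cast_zero, Int.cast_one, zero_mul, zero_add, add_zero]
  push_cast
  ring

lemma vr_35 (x : Fin 3 → ℝ) : s31 x ^ 2 * Msym ![5, 3, 0] x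
    = evL v35 (vvec x) := by
  rw [ms_35]
  simp only [v35, vvec, evL_cons, evL_nil_left, Int.cast_zero, Int.cast_one, zero_mul, zero_add, add_zero]
  push_cast
  ring

lemma tr_36 (x : Fin 3 → ℝ) : Msym ![5, 2, 1] x
    = evL t36 (evec x) := by
  rw [ms_36]
  simp only [t36, evec, evL_cons, evL_nil_left, Int.cast_zero, Int.cast_one, zero_mul, zero_add, add_zero]
  push_cast
  ring

lemma vr_36 (x : Fin 3 → ℝ) : s31 x ^ 2 * Msym ![5, 2, 1] x
    = evL v36 (vvec x) := by
  rw [ms_36]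
  simp only [v36, vvec, evL_cons, evL_nil_left, Int.cast_zero, Int.cast_one, zero_mul, zero_add, add_zero]
  push_cast
  ring

lemma tr_37 (x : Fin 3 → ℝ) : Msym ![4, 4, 0] x
    = evL t37 (evec x) := by
  rw [ms_37]
  simp only [t37, evec, evL_cons, evL_nil_left, Int.cast_zero, Int.cast_one, zero_mul, zero_add, add_zero]
  push_cast
  ring

lemma vr_37 (x : Fin 3 → ℝ) : s31 x ^ 2 * Msym ![4, 4, 0] x
    = evL v37 (vvec x) := by
  rw [ms_37]
  simp only [v37, vvec, evL_cons, evL_nil_left, Int.cast_zero, Int.cast_one, zero_mul, zero_add, add_zero]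
  push_cast
  ring

lemma tr_38 (x : Fin 3 → ℝ) : Msym ![4, 3, 1] x
    = evL t38 (evec x) := by
  rw [ms_38]
  simp only [t38, evec, evL_cons, evL_nil_left, Int.cast_zero, Int.cast_one, zero_mul, zero_add, add_zero]
  push_cast
  ring

lemma vr_38 (x : Fin 3 → ℝ) : s31 x ^ 2 * Msym ![4, 3, 1] x
    = evL v38 (vvec x) := by
  rw [ms_38]
  simp only [v38, vvec, evL_cons, evL_nil_left, Int.cast_zero, Int.cast_one, zero_mul, zero_add, add_zero]
  push_cast
  ring

lemma tr_39 (x : Fin 3 → ℝ) : Msym ![4, 2, 2] x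
    = evL t39 (evec x) := by
  rw [ms_39]
  simp only [t39, evec, evL_cons, evL_nil_left, Int.cast_zero, Int.cast_one, zero_mul, zero_add, add_zero]
  push_cast
  ring

lemma vr_39 (x : Fin 3 → ℝ) : s31 x ^ 2 * Msym ![4, 2, 2] x
    = evL v39 (vvec x) := by
  rw [ms_39]
  simp only [v39, vvec, evL_cons, evL_nil_left, Int.cast_zero, Int.cast_one, zero_mul, zero_add, add_zero]
  push_cast
  ring

lemma tr_40 (x : Fin 3 → ℝ) : Msym ![3, 3, 2] x
    = evL t40 (evec x) := by
  rw [ms_40]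
  simp only [t40, evec, evL_cons, evL_nil_left, Int.cast_zero, Int.cast_one, zero_mul, zero_add, add_zero]
  push_cast
  ring

lemma vr_40 (x : Fin 3 → ℝ) : s31 x ^ 2 * Msym ![3, 3, 2] x
    = evL v40 (vvec x) := by
  rw [ms_40]
  simp only [v40, vvec, evL_cons, evL_nil_left, Int.cast_zero, Int.cast_one, zero_mul, zero_add, add_zero]
  push_cast
  ring

lemma tr_41 (x : Fin 3 → ℝ) : Msym ![9, 0, 0] x
    = evL t41 (evec x) := by
  rw [ms_41]
  simp only [t41, evec, evL_cons, evL_nil_left, Int.cast_zero, Int.cast_one, zero_mul, zero_add, add_zero]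
  push_cast
  ring

lemma vr_41 (x : Fin 3 → ℝ) : s31 x ^ 1 * Msym ![9, 0, 0] x
    = evL v41 (vvec x) := by
  rw [ms_41]
  simp only [v41, vvec, evL_cons, evL_nil_left, Int.cast_zero, Int.cast_one, zero_mul, zero_add, add_zero]
  push_cast
  ring

lemma tr_42 (x : Fin 3 → ℝ) : Msym ![8, 1, 0] x
    = evL t42 (evec x) := by
  rw [ms_42]
  simp only [t42, evec, evL_cons, evL_nil_left, Int.cast_zero, Int.cast_one, zero_mul, zero_add, add_zero]
  push_cast
  ring

lemma vr_42 (x : Fin 3 → ℝ) : s31 x ^ 1 * Msym ![8, 1, 0] x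
    = evL v42 (vvec x) := by
  rw [ms_42]
  simp only [v42, vvec, evL_cons, evL_nil_left, Int.cast_zero, Int.cast_one, zero_mul, zero_add, add_zero]
  push_cast
  ring

lemma tr_43 (x : Fin 3 → ℝ) : Msym ![7, 2, 0] x
    = evL t43 (evec x) := by
  rw [ms_43]
  simp only [t43, evec, evL_cons, evL_nil_left, Int.cast_zero, Int.cast_one, zero_mul, zero_add, add_zero]
  push_cast
  ring

lemma vr_43 (x : Fin 3 → ℝ) : s31 x ^ 1 * Msym ![7, 2, 0] x
    = evL v43 (vvec x) := by
  rw [ms_43]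
  simp only [v43, vvec, evL_cons, evL_nil_left, Int.cast_zero, Int.cast_one, zero_mul, zero_add, add_zero]
  push_cast
  ring

lemma tr_44 (x : Fin 3 → ℝ) : Msym ![7, 1, 1] x
    = evL t44 (evec x) := by
  rw [ms_44]
  simp only [t44, evec, evL_cons, evL_nil_left, Int.cast_zero, Int.cast_one, zero_mul, zero_add, add_zero]
  push_cast
  ring

lemma vr_44 (x : Fin 3 → ℝ) : s31 x ^ 1 * Msym ![7, 1, 1] x
    = evL v44 (vvec x) := by
  rw [ms_44]
  simp only [v44, vvec, evL_cons, evL_nil_left, Int.cast_zero, Int.cast_one, zero_mul, zero_add, add_zero]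
  push_cast
  ring

lemma tr_45 (x : Fin 3 → ℝ) : Msym ![6, 3, 0] x
    = evL t45 (evec x) := by
  rw [ms_45]
  simp only [t45, evec, evL_cons, evL_nil_left, Int.cast_zero, Int.cast_one, zero_mul, zero_add, add_zero]
  push_cast
  ring

lemma vr_45 (x : Fin 3 → ℝ) : s31 x ^ 1 * Msym ![6, 3, 0] x
    = evL v45 (vvec x) := by
  rw [ms_45]
  simp only [v45, vvec, evL_cons, evL_nil_left, Int.cast_zero, Int.cast_one, zero_mul, zero_add, add_zero]
  push_cast
  ring

lemma tr_46 (x : Fin 3 → ℝ) : Msym ![6, 2, 1] x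
    = evL t46 (evec x) := by
  rw [ms_46]
  simp only [t46, evec, evL_cons, evL_nil_left, Int.cast_zero, Int.cast_one, zero_mul, zero_add, add_zero]
  push_cast
  ring

lemma vr_46 (x : Fin 3 → ℝ) : s31 x ^ 1 * Msym ![6, 2, 1] x
    = evL v46 (vvec x) := by
  rw [ms_46]
  simp only [v46, vvec, evL_cons, evL_nil_left, Int.cast_zero, Int.cast_one, zero_mul, zero_add, add_zero]
  push_cast
  ring

lemma tr_47 (x : Fin 3 → ℝ) : Msym ![5, 4, 0] x
    = evL t47 (evec x) := by
  rw [ms_47]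
  simp only [t47, evec, evL_cons, evL_nil_left, Int.cast_zero, Int.cast_one, zero_mul, zero_add, add_zero]
  push_cast
  ring

lemma vr_47 (x : Fin 3 → ℝ) : s31 x ^ 1 * Msym ![5, 4, 0] x
    = evL v47 (vvec x) := by
  rw [ms_47]
  simp only [v47, vvec, evL_cons, evL_nil_left, Int.cast_zero, Int.cast_one, zero_mul, zero_add, add_zero]
  push_cast
  ring

lemma tr_48 (x : Fin 3 → ℝ) : Msym ![5, 3, 1] x
    = evL t48 (evec x) := by
  rw [ms_48]
  simp only [t48, evec, evL_cons, evL_nil_left, Int.cast_zero, Int.cast_one, zero_mul, zero_add, add_zero]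
  push_cast
  ring

lemma vr_48 (x : Fin 3 → ℝ) : s31 x ^ 1 * Msym ![5, 3, 1] x
    = evL v48 (vvec x) := by
  rw [ms_48]
  simp only [v48, vvec, evL_cons, evL_nil_left, Int.cast_zero, Int.cast_one, zero_mul, zero_add, add_zero]
  push_cast
  ring

lemma tr_49 (x : Fin 3 → ℝ) : Msym ![5, 2, 2] x
    = evL t49 (evec x) := by
  rw [ms_49]
  simp only [t49, evec, evL_cons, evL_nil_left, Int.cast_zero, Int.cast_one, zero_mul, zero_add, add_zero]
  push_cast
  ring

lemma vr_49 (x : Fin 3 → ℝ) : s31 x ^ 1 * Msym ![5, 2, 2] x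
    = evL v49 (vvec x) := by
  rw [ms_49]
  simp only [v49, vvec, evL_cons, evL_nil_left, Int.cast_zero, Int.cast_one, zero_mul, zero_add, add_zero]
  push_cast
  ring

lemma tr_50 (x : Fin 3 → ℝ) : Msym ![4, 4, 1] x
    = evL t50 (evec x) := by
  rw [ms_50]
  simp only [t50, evec, evL_cons, evL_nil_left, Int.cast_zero, Int.cast_one, zero_mul, zero_add, add_zero]
  push_cast
  ring

lemma vr_50 (x : Fin 3 → ℝ) : s31 x ^ 1 * Msym ![4, 4, 1] x
    = evL v50 (vvec x) := by
  rw [ms_50]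
  simp only [v50, vvec, evL_cons, evL_nil_left, Int.cast_zero, Int.cast_one, zero_mul, zero_add, add_zero]
  push_cast
  ring

lemma tr_51 (x : Fin 3 → ℝ) : Msym ![4, 3, 2] x
    = evL t51 (evec x) := by
  rw [ms_51]
  simp only [t51, evec, evL_cons, evL_nil_left, Int.cast_zero, Int.cast_one, zero_mul, zero_add, add_zero]
  push_cast
  ring

lemma vr_51 (x : Fin 3 → ℝ) : s31 x ^ 1 * Msym ![4, 3, 2] x
    = evL v51 (vvec x) := by
  rw [ms_51]
  simp only [v51, vvec, evL_cons, evL_nil_left, Int.cast_zero, Int.cast_one, zero_mul, zero_add, add_zero]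
  push_cast
  ring

lemma tr_52 (x : Fin 3 → ℝ) : Msym ![3, 3, 3] x
    = evL t52 (evec x) := by
  rw [ms_52]
  simp only [t52, evec, evL_cons, evL_nil_left, Int.cast_zero, Int.cast_one, zero_mul, zero_add, add_zero]
  push_cast
  ring

lemma vr_52 (x : Fin 3 → ℝ) : s31 x ^ 1 * Msym ![3, 3, 3] x
    = evL v52 (vvec x) := by
  rw [ms_52]
  simp only [v52, vvec, evL_cons, evL_nil_left, Int.cast_zero, Int.cast_one, zero_mul, zero_add, add_zero]
  push_cast
  ring

lemma tr_53 (x : Fin 3 → ℝ) : Msym ![10, 0, 0] x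
    = evL t53 (evec x) := by
  rw [ms_53]
  simp only [t53, evec, evL_cons, evL_nil_left, Int.cast_zero, Int.cast_one, zero_mul, zero_add, add_zero]
  push_cast
  ring

lemma vr_53 (x : Fin 3 → ℝ) : s31 x ^ 0 * Msym ![10, 0, 0] x
    = evL v53 (vvec x) := by
  rw [ms_53]
  simp only [v53, vvec, evL_cons, evL_nil_left, Int.cast_zero, Int.cast_one, zero_mul, zero_add, add_zero]
  push_cast
  ring

lemma tr_54 (x : Fin 3 → ℝ) : Msym ![9, 1, 0] x
    = evL t54 (evec x) := by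
  rw [ms_54]
  simp only [t54, evec, evL_cons, evL_nil_left, Int.cast_zero, Int.cast_one, zero_mul, zero_add, add_zero]
  push_cast
  ring

lemma vr_54 (x : Fin 3 → ℝ) : s31 x ^ 0 * Msym ![9, 1, 0] x
    = evL v54 (vvec x) := by
  rw [ms_54]
  simp only [v54, vvec, evL_cons, evL_nil_left, Int.cast_zero, Int.cast_one, zero_mul, zero_add, add_zero]
  push_cast
  ring

lemma tr_55 (x : Fin 3 → ℝ) : Msym ![8, 2, 0] x
    = evL t55 (evec x) := by
  rw [ms_55]
  simp only [t55, evec, evL_cons, evL_nil_left, Int.cast_zero, Int.cast_one, zero_mul, zero_add, add_zero]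
  push_cast
  ring

lemma vr_55 (x : Fin 3 → ℝ) : s31 x ^ 0 * Msym ![8, 2, 0] x
    = evL v55 (vvec x) := by
  rw [ms_55]
  simp only [v55, vvec, evL_cons, evL_nil_left, Int.cast_zero, Int.cast_one, zero_mul, zero_add, add_zero]
  push_cast
  ring

lemma tr_56 (x : Fin 3 → ℝ) : Msym ![8, 1, 1] x
    = evL t56 (evec x) := by
  rw [ms_56]
  simp only [t56, evec, evL_cons, evL_nil_left, Int.cast_zero, Int.cast_one, zero_mul, zero_add, add_zero]
  push_cast
  ring

lemma vr_56 (x : Fin 3 → ℝ) : s31 x ^ 0 * Msym ![8, 1, 1] x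
    = evL v56 (vvec x) := by
  rw [ms_56]
  simp only [v56, vvec, evL_cons, evL_nil_left, Int.cast_zero, Int.cast_one, zero_mul, zero_add, add_zero]
  push_cast
  ring

lemma tr_57 (x : Fin 3 → ℝ) : Msym ![7, 3, 0] x
    = evL t57 (evec x) := by
  rw [ms_57]
  simp only [t57, evec, evL_cons, evL_nil_left, Int.cast_zero, Int.cast_one, zero_mul, zero_add, add_zero]
  push_cast
  ring

lemma vr_57 (x : Fin 3 → ℝ) : s31 x ^ 0 * Msym ![7, 3, 0] x
    = evL v57 (vvec x) := by
  rw [ms_57]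
  simp only [v57, vvec, evL_cons, evL_nil_left, Int.cast_zero, Int.cast_one, zero_mul, zero_add, add_zero]
  push_cast
  ring

lemma tr_58 (x : Fin 3 → ℝ) : Msym ![7, 2, 1] x
    = evL t58 (evec x) := by
  rw [ms_58]
  simp only [t58, evec, evL_cons, evL_nil_left, Int.cast_zero, Int.cast_one, zero_mul, zero_add, add_zero]
  push_cast
  ring

lemma vr_58 (x : Fin 3 → ℝ) : s31 x ^ 0 * Msym ![7, 2, 1] x
    = evL v58 (vvec x) := by
  rw [ms_58]
  simp only [v58, vvec, evL_cons, evL_nil_left, Int.cast_zero, Int.cast_one, zero_mul, zero_add, add_zero]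
  push_cast
  ring

lemma tr_59 (x : Fin 3 → ℝ) : Msym ![6, 4, 0] x
    = evL t59 (evec x) := by
  rw [ms_59]
  simp only [t59, evec, evL_cons, evL_nil_left, Int.cast_zero, Int.cast_one, zero_mul, zero_add, add_zero]
  push_cast
  ring

lemma vr_59 (x : Fin 3 → ℝ) : s31 x ^ 0 * Msym ![6, 4, 0] x
    = evL v59 (vvec x) := by
  rw [ms_59]
  simp only [v59, vvec, evL_cons, evL_nil_left, Int.cast_zero, Int.cast_one, zero_mul, zero_add, add_zero]
  push_cast
  ring

lemma tr_60 (x : Fin 3 → ℝ) : Msym ![6, 3, 1] x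
    = evL t60 (evec x) := by
  rw [ms_60]
  simp only [t60, evec, evL_cons, evL_nil_left, Int.cast_zero, Int.cast_one, zero_mul, zero_add, add_zero]
  push_cast
  ring

lemma vr_60 (x : Fin 3 → ℝ) : s31 x ^ 0 * Msym ![6, 3, 1] x
    = evL v60 (vvec x) := by
  rw [ms_60]
  simp only [v60, vvec, evL_cons, evL_nil_left, Int.cast_zero, Int.cast_one, zero_mul, zero_add, add_zero]
  push_cast
  ring

lemma tr_61 (x : Fin 3 → ℝ) : Msym ![6, 2, 2] x
    = evL t61 (evec x) := by
  rw [ms_61]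
  simp only [t61, evec, evL_cons, evL_nil_left, Int.cast_zero, Int.cast_one, zero_mul, zero_add, add_zero]
  push_cast
  ring

lemma vr_61 (x : Fin 3 → ℝ) : s31 x ^ 0 * Msym ![6, 2, 2] x
    = evL v61 (vvec x) := by
  rw [ms_61]
  simp only [v61, vvec, evL_cons, evL_nil_left, Int.cast_zero, Int.cast_one, zero_mul, zero_add, add_zero]
  push_cast
  ring

lemma tr_62 (x : Fin 3 → ℝ) : Msym ![5, 5, 0] x
    = evL t62 (evec x) := by
  rw [ms_62]
  simp only [t62, evec, evL_cons, evL_nil_left, Int.cast_zero, Int.cast_one, zero_mul, zero_add, add_zero]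
  push_cast
  ring

lemma vr_62 (x : Fin 3 → ℝ) : s31 x ^ 0 * Msym ![5, 5, 0] x
    = evL v62 (vvec x) := by
  rw [ms_62]
  simp only [v62, vvec, evL_cons, evL_nil_left, Int.cast_zero, Int.cast_one, zero_mul, zero_add, add_zero]
  push_cast
  ring

lemma tr_63 (x : Fin 3 → ℝ) : Msym ![5, 4, 1] x
    = evL t63 (evec x) := by
  rw [ms_63]
  simp only [t63, evec, evL_cons, evL_nil_left, Int.cast_zero, Int.cast_one, zero_mul, zero_add, add_zero]
  push_cast
  ring

lemma vr_63 (x : Fin 3 → ℝ) : s31 x ^ 0 * Msym ![5, 4, 1] x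
    = evL v63 (vvec x) := by
  rw [ms_63]
  simp only [v63, vvec, evL_cons, evL_nil_left, Int.cast_zero, Int.cast_one, zero_mul, zero_add, add_zero]
  push_cast
  ring

lemma tr_64 (x : Fin 3 → ℝ) : Msym ![5, 3, 2] x
    = evL t64 (evec x) := by
  rw [ms_64]
  simp only [t64, evec, evL_cons, evL_nil_left, Int.cast_zero, Int.cast_one, zero_mul, zero_add, add_zero]
  push_cast
  ring

lemma vr_64 (x : Fin 3 → ℝ) : s31 x ^ 0 * Msym ![5, 3, 2] x
    = evL v64 (vvec x) := by
  rw [ms_64]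
  simp only [v64, vvec, evL_cons, evL_nil_left, Int.cast_zero, Int.cast_one, zero_mul, zero_add, add_zero]
  push_cast
  ring

lemma tr_65 (x : Fin 3 → ℝ) : Msym ![4, 4, 2] x
    = evL t65 (evec x) := by
  rw [ms_65]
  simp only [t65, evec, evL_cons, evL_nil_left, Int.cast_zero, Int.cast_one, zero_mul, zero_add, add_zero]
  push_cast
  ring

lemma vr_65 (x : Fin 3 → ℝ) : s31 x ^ 0 * Msym ![4, 4, 2] x
    = evL v65 (vvec x) := by
  rw [ms_65]
  simp only [v65, vvec, evL_cons, evL_nil_left, Int.cast_zero, Int.cast_one, zero_mul, zero_add, add_zero]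
  push_cast
  ring

lemma tr_66 (x : Fin 3 → ℝ) : Msym ![4, 3, 3] x
    = evL t66 (evec x) := by
  rw [ms_66]
  simp only [t66, evec, evL_cons, evL_nil_left, Int.cast_zero, Int.cast_one, zero_mul, zero_add, add_zero]
  push_cast
  ring

lemma vr_66 (x : Fin 3 → ℝ) : s31 x ^ 0 * Msym ![4, 3, 3] x
    = evL v66 (vvec x) := by
  rw [ms_66]
  simp only [v66, vvec, evL_cons, evL_nil_left, Int.cast_zero, Int.cast_one, zero_mul, zero_add, add_zero]
  push_cast
  ring

theorem Mvec (x : Fin 3 → ℝ) :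
    mw.map (fun e => Msym e.1 x) = T.map (fun t => evL t (evec x)) := by
  simp only [mw, T, List.map_cons, List.map_nil]
  rw [← tr_0, ← tr_1, ← tr_2, ← tr_3, ← tr_4, ← tr_5, ← tr_6, ← tr_7, ← tr_8, ← tr_9, ← tr_10, ← tr_11, ← tr_12, ← tr_13, ← tr_14, ← tr_15, ← tr_16, ← tr_17, ← tr_18, ← tr_19, ← tr_20, ← tr_21, ← tr_22, ← tr_23, ← tr_24, ← tr_25, ← tr_26, ← tr_27, ← tr_28, ← tr_29, ← tr_30, ← tr_31, ← tr_32, ← tr_33, ← tr_34, ← tr_35, ← tr_36, ← tr_37, ← tr_38, ← tr_39, ← tr_40, ← tr_41, ← tr_42, ← tr_43, ← tr_44, ← tr_45, ← tr_46, ← tr_47, ← tr_48, ← tr_49, ← tr_50, ← tr_51, ← tr_52, ← tr_53, ← tr_54, ← tr_55, ← tr_56, ← tr_57, ← tr_58, ← tr_59, ← tr_60, ← tr_61, ← tr_62, ← tr_63, ← tr_64, ← tr_65, ← tr_66]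

theorem Vvec (x : Fin 3 → ℝ) :
    mw.map (fun e => s31 x ^ e.2 * Msym e.1 x) = V.map (fun t => evL t (vvec x)) := by
  simp only [mw, V, List.map_cons, List.map_nil]
  rw [← vr_0, ← vr_1, ← vr_2, ← vr_3, ← vr_4, ← vr_5, ← vr_6, ← vr_7, ← vr_8, ← vr_9, ← vr_10, ← vr_11, ← vr_12, ← vr_13, ← vr_14, ← vr_15, ← vr_16, ← vr_17, ← vr_18, ← vr_19, ← vr_20, ← vr_21, ← vr_22, ← vr_23, ← vr_24, ← vr_25, ← vr_26, ← vr_27, ← vr_28, ← vr_29, ← vr_30, ← vr_31, ← vr_32, ← vr_33, ← vr_34, ← vr_35, ← vr_36, ← vr_37, ← vr_38, ← vr_39, ← vr_40, ← vr_41, ← vr_42, ← vr_43, ← vr_44, ← vr_45, ← vr_46, ← vr_47, ← vr_48, ← vr_49, ← vr_50, ← vr_51, ← vr_52, ← vr_53, ← vr_54, ← vr_55, ← vr_56, ← vr_57, ← vr_58, ← vr_59, ← vr_60, ← vr_61, ← vr_62, ← vr_63, ← vr_64, ← vr_65, ← vr_66]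

theorem avgL (l r : List ℤ) (h : isZL (addL (vecMat r T) (smulL (-6) l)) = true)
    (A B : Fin 3 → ℝ) (hA : s31 A = 3) (hB : s31 B = 3) :
    6 * 3 ^ 20 * ∑ p : Equiv.Perm (Fin 3), evL l (evec (fun i => A i * B (p i)))
      = bil (diagForm (scl 9 10 r mw) V) (vvec A) (vvec B) := by
  have h1 : ∀ x : Fin 3 → ℝ, 6 * evL l (evec x) = evL r (mw.map (fun e => Msym e.1 x)) := by
    intro x
    have := evL_isZL _ h (evec x)
    rw [evL_addL, evL_smulL, evL_vecMat, ← Mvec] at this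
    push_cast at this
    linarith
  have h2 := scl_diag A B 3 10 r mw (by decide)
  have h3 := Vvec A
  have h4 := Vvec B
  rw [hA] at h3
  rw [hB] at h4
  push_cast at h2
  rw [h3, h4, ← bil_diagForm, ← sum_ev_M] at h2
  rw [h2, mul_comm (6:ℝ), mul_assoc, Finset.mul_sum]
  congr 1
  exact Finset.sum_congr rfl fun p _ => h1 _

end Vale.Agent.P154.A10
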