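import Vale.Agent.P154.Avg3
import Vale.Agent.P154.AvgGen

/-! Averages over permutations, q = 3, weight at most 10: data (generated). -/

set_option linter.unusedSimpArgs false
set_option linter.style.longLine false

namespace Vale.Agent.P154.A10

open Finset Vale.Agent.P154

lemma pw3_7 (x : Fin 3 → ℝ) : pwM x 7 = s31 x ^ 7 - 7 * (s31 x ^ 5 * s32 x) + 7 * (s31 x ^ 4 * s33 x) + 14 * (s31 x ^ 3 * s32 x ^ 2) - 21 * (s31 x ^ 2 * s32 x * s33 x) - 7 * (s31 x * s32 x ^ 3) + 7 * (s31 x * s33 x ^ 2) + 7 * (s32 x ^ 2 * s33 x) := by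
  have h := pw3_rec x 4
  norm_num only [pw3_6, pw3_5, pw3_4] at h
  rw [h]
  ring

lemma pw3_8 (x : Fin 3 → ℝ) : pwM x 8 = s31 x ^ 8 - 8 * (s31 x ^ 6 * s32 x) + 8 * (s31 x ^ 5 * s33 x) + 20 * (s31 x ^ 4 * s32 x ^ 2) - 32 * (s31 x ^ 3 * s32 x * s33 x) - 16 * (s31 x ^ 2 * s32 x ^ 3) + 12 * (s31 x ^ 2 * s33 x ^ 2) + 24 * (s31 x * s32 x ^ 2 * s33 x) + 2 * (s32 x ^ 4) - 8 * (s32 x * s33 x ^ 2) := by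
  have h := pw3_rec x 5
  norm_num only [pw3_7, pw3_6, pw3_5] at h
  rw [h]
  ring

lemma pw3_9 (x : Fin 3 → ℝ) : pwM x 9 = s31 x ^ 9 - 9 * (s31 x ^ 7 * s32 x) + 9 * (s31 x ^ 6 * s33 x) + 27 * (s31 x ^ 5 * s32 x ^ 2) - 45 * (s31 x ^ 4 * s32 x * s33 x) - 30 * (s31 x ^ 3 * s32 x ^ 3) + 18 * (s31 x ^ 3 * s33 x ^ 2) + 54 * (s31 x ^ 2 * s32 x ^ 2 * s33 x) + 9 * (s31 x * s32 x ^ 4) - 27 * (s31 x * s32 x * s33 x ^ 2) - 9 * (s32 x ^ 3 * s33 x) + 3 * (s33 x ^ 3) := by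
  have h := pw3_rec x 6
  norm_num only [pw3_8, pw3_7, pw3_6] at h
  rw [h]
  ring

lemma pw3_10 (x : Fin 3 → ℝ) : pwM x 10 = s31 x ^ 10 - 10 * (s31 x ^ 8 * s32 x) + 10 * (s31 x ^ 7 * s33 x) + 35 * (s31 x ^ 6 * s32 x ^ 2) - 60 * (s31 x ^ 5 * s32 x * s33 x) - 50 * (s31 x ^ 4 * s32 x ^ 3) + 25 * (s31 x ^ 4 * s33 x ^ 2) + 100 * (s31 x ^ 3 * s32 x ^ 2 * s33 x) + 25 * (s31 x ^ 2 * s32 x ^ 4) - 60 * (s31 x ^ 2 * s32 x * s33 x ^ 2) - 40 * (s31 x * s32 x ^ 3 * s33 x) + 10 * (s31 x * s33 x ^ 3) - 2 * (s32 x ^ 5) + 15 * (s32 x ^ 2 * s33 x ^ 2) := by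
  have h := pw3_rec x 7
  norm_num only [pw3_9, pw3_8, pw3_7] at h
  rw [h]
  ring

/-- all monomials of weight at most 10 -/
noncomputable def evec (x : Fin 3 → ℝ) : List ℝ :=
  [1,
   s31 x,
   s31 x ^ 2,
   s32 x,
   s31 x ^ 3,
   s31 x * s32 x,
   s33 x,
   s31 x ^ 4,
   s31 x ^ 2 * s32 x,
   s31 x * s33 x,
   s32 x ^ 2,
   s31 x ^ 5,
   s31 x ^ 3 * s32 x,
   s31 x ^ 2 * s33 x,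
   s31 x * s32 x ^ 2,
   s32 x * s33 x,
   s31 x ^ 6,
   s31 x ^ 4 * s32 x,
   s31 x ^ 3 * s33 x,
   s31 x ^ 2 * s32 x ^ 2,
   s31 x * s32 x * s33 x,
   s32 x ^ 3,
   s33 x ^ 2,
   s31 x ^ 7,
   s31 x ^ 5 * s32 x,
   s31 x ^ 4 * s33 x,
   s31 x ^ 3 * s32 x ^ 2,
   s31 x ^ 2 * s32 x * s33 x,
   s31 x * s32 x ^ 3,
   s31 x * s33 x ^ 2,
   s32 x ^ 2 * s33 x,
   s31 x ^ 8,
   s31 x ^ 6 * s32 x,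
   s31 x ^ 5 * s33 x,
   s31 x ^ 4 * s32 x ^ 2,
   s31 x ^ 3 * s32 x * s33 x,
   s31 x ^ 2 * s32 x ^ 3,
   s31 x ^ 2 * s33 x ^ 2,
   s31 x * s32 x ^ 2 * s33 x,
   s32 x ^ 4,
   s32 x * s33 x ^ 2,
   s31 x ^ 9,
   s31 x ^ 7 * s32 x,
   s31 x ^ 6 * s33 x,
   s31 x ^ 5 * s32 x ^ 2,
   s31 x ^ 4 * s32 x * s33 x,
   s31 x ^ 3 * s32 x ^ 3,
   s31 x ^ 3 * s33 x ^ 2,
   s31 x ^ 2 * s32 x ^ 2 * s33 x,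
   s31 x * s32 x ^ 4,
   s31 x * s32 x * s33 x ^ 2,
   s32 x ^ 3 * s33 x,
   s33 x ^ 3,
   s31 x ^ 10,
   s31 x ^ 8 * s32 x,
   s31 x ^ 7 * s33 x,
   s31 x ^ 6 * s32 x ^ 2,
   s31 x ^ 5 * s32 x * s33 x,
   s31 x ^ 4 * s32 x ^ 3,
   s31 x ^ 4 * s33 x ^ 2,
   s31 x ^ 3 * s32 x ^ 2 * s33 x,
   s31 x ^ 2 * s32 x ^ 4,
   s31 x ^ 2 * s32 x * s33 x ^ 2,
   s31 x * s32 x ^ 3 * s33 x,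
   s31 x * s33 x ^ 3,
   s32 x ^ 5,
   s32 x ^ 2 * s33 x ^ 2]

/-- all monomials of weight 10 -/
noncomputable def vvec (x : Fin 3 → ℝ) : List ℝ :=
  [s31 x ^ 10,
   s31 x ^ 8 * s32 x,
   s31 x ^ 7 * s33 x,
   s31 x ^ 6 * s32 x ^ 2,
   s31 x ^ 5 * s32 x * s33 x,
   s31 x ^ 4 * s33 x ^ 2,
   s31 x ^ 4 * s32 x ^ 3,
   s31 x ^ 3 * s32 x ^ 2 * s33 x,
   s31 x ^ 2 * s32 x * s33 x ^ 2,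
   s31 x * s33 x ^ 3,
   s31 x ^ 2 * s32 x ^ 4,
   s31 x * s32 x ^ 3 * s33 x,
   s32 x ^ 2 * s33 x ^ 2,
   s32 x ^ 5]

/-- partitions, with the missing weight -/
def mw : List ((Fin 3 → ℕ) × ℕ) :=
  [(![0, 0, 0], 10),
   (![1, 0, 0], 9),
   (![2, 0, 0], 8),
   (![1, 1, 0], 8),
   (![3, 0, 0], 7),
   (![2, 1, 0], 7),
   (![1, 1, 1], 7),
   (![4, 0, 0], 6),
   (![3, 1, 0], 6),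
   (![2, 2, 0], 6),
   (![2, 1, 1], 6),
   (![5, 0, 0], 5),
   (![4, 1, 0], 5),
   (![3, 2, 0], 5),
   (![3, 1, 1], 5),
   (![2, 2, 1], 5),
   (![6, 0, 0], 4),
   (![5, 1, 0], 4),
   (![4, 2, 0], 4),
   (![4, 1, 1], 4),
   (![3, 3, 0], 4),
   (![3, 2, 1], 4),
   (![2, 2, 2], 4),
   (![7, 0, 0], 3),
   (![6, 1, 0], 3),
   (![5, 2, 0], 3),
   (![5, 1, 1], 3),
   (![4, 3, 0], 3),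
   (![4, 2, 1], 3),
   (![3, 3, 1], 3),
   (![3, 2, 2], 3),
   (![8, 0, 0], 2),
   (![7, 1, 0], 2),
   (![6, 2, 0], 2),
   (![6, 1, 1], 2),
   (![5, 3, 0], 2),
   (![5, 2, 1], 2),
   (![4, 4, 0], 2),
   (![4, 3, 1], 2),
   (![4, 2, 2], 2),
   (![3, 3, 2], 2),
   (![9, 0, 0], 1),
   (![8, 1, 0], 1),
   (![7, 2, 0], 1),
   (![7, 1, 1], 1),
   (![6, 3, 0], 1),
   (![6, 2, 1], 1),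
   (![5, 4, 0], 1),
   (![5, 3, 1], 1),
   (![5, 2, 2], 1),
   (![4, 4, 1], 1),
   (![4, 3, 2], 1),
   (![3, 3, 3], 1),
   (![10, 0, 0], 0),
   (![9, 1, 0], 0),
   (![8, 2, 0], 0),
   (![8, 1, 1], 0),
   (![7, 3, 0], 0),
   (![7, 2, 1], 0),
   (![6, 4, 0], 0),
   (![6, 3, 1], 0),
   (![6, 2, 2], 0),
   (![5, 5, 0], 0),
   (![5, 4, 1], 0),
   (![5, 3, 2], 0),
   (![4, 4, 2], 0),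
   (![4, 3, 3], 0)]

/-- row 0 -/
def t0 : List ℤ := [6]

/-- row 1 -/
def t1 : List ℤ := [0, 2]

/-- row 2 -/
def t2 : List ℤ := [0, 0, 2, -4]

/-- row 3 -/
def t3 : List ℤ := [0, 0, 0, 2]

/-- row 4 -/
def t4 : List ℤ := [0, 0, 0, 0, 2, -6, 6]

/-- row 5 -/
def t5 : List ℤ := [0, 0, 0, 0, 0, 1, -3]

/-- row 6 -/
def t6 : List ℤ := [0, 0, 0, 0, 0, 0, 6]

/-- row 7 -/
def t7 : List ℤ := [0, 0, 0, 0, 0, 0, 0, 2, -8, 8, 4]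

/-- row 8 -/
def t8 : List ℤ := [0, 0, 0, 0, 0, 0, 0, 0, 1, -1, -2]

/-- row 9 -/
def t9 : List ℤ := [0, 0, 0, 0, 0, 0, 0, 0, 0, -4, 2]

/-- row 10 -/
def t10 : List ℤ := [0, 0, 0, 0, 0, 0, 0, 0, 0, 2]

/-- row 11 -/
def t11 : List ℤ := [0, 0, 0, 0, 0, 0, 0, 0, 0, 0, 0, 2, -10, 10, 10, -10]

/-- row 12 -/
def t12 : List ℤ := [0, 0, 0, 0, 0, 0, 0, 0, 0, 0, 0, 0, 1, -1, -3, 5]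

/-- row 13 -/
def t13 : List ℤ := [0, 0, 0, 0, 0, 0, 0, 0, 0, 0, 0, 0, 0, -2, 1, -1]

/-- row 14 -/
def t14 : List ℤ := [0, 0, 0, 0, 0, 0, 0, 0, 0, 0, 0, 0, 0, 2, 0, -4]

/-- row 15 -/
def t15 : List ℤ := [0, 0, 0, 0, 0, 0, 0, 0, 0, 0, 0, 0, 0, 0, 0, 2]

/-- row 16 -/
def t16 : List ℤ := [0, 0, 0, 0, 0, 0, 0, 0, 0, 0, 0, 0, 0, 0, 0, 0, 2, -12, 12, 18, -24, -4, 6]

/-- row 17 -/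
def t17 : List ℤ := [0, 0, 0, 0, 0, 0, 0, 0, 0, 0, 0, 0, 0, 0, 0, 0, 0, 1, -1, -4, 7, 2, -3]

/-- row 18 -/
def t18 : List ℤ := [0, 0, 0, 0, 0, 0, 0, 0, 0, 0, 0, 0, 0, 0, 0, 0, 0, 0, -2, 1, 4, -2, -3]

/-- row 19 -/
def t19 : List ℤ := [0, 0, 0, 0, 0, 0, 0, 0, 0, 0, 0, 0, 0, 0, 0, 0, 0, 0, 2, 0, -6, 0, 6]

/-- row 20 -/
def t20 : List ℤ := [0, 0, 0, 0, 0, 0, 0, 0, 0, 0, 0, 0, 0, 0, 0, 0, 0, 0, 0, 0, -6, 2, 6]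

/-- row 21 -/
def t21 : List ℤ := [0, 0, 0, 0, 0, 0, 0, 0, 0, 0, 0, 0, 0, 0, 0, 0, 0, 0, 0, 0, 1, 0, -3]

/-- row 22 -/
def t22 : List ℤ := [0, 0, 0, 0, 0, 0, 0, 0, 0, 0, 0, 0, 0, 0, 0, 0, 0, 0, 0, 0, 0, 0, 6]

/-- row 23 -/
def t23 : List ℤ := [0, 0, 0, 0, 0, 0, 0, 0, 0, 0, 0, 0, 0, 0, 0, 0, 0, 0, 0, 0, 0, 0, 0, 2, -14, 14, 28, -42, -14, 14, 14]

/-- row 24 -/
def t24 : List ℤ := [0, 0, 0, 0, 0, 0, 0, 0, 0, 0, 0, 0, 0, 0, 0, 0, 0, 0, 0, 0, 0, 0, 0, 0, 1, -1, -5, 9, 5, -4, -7]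

/-- row 25 -/
def t25 : List ℤ := [0, 0, 0, 0, 0, 0, 0, 0, 0, 0, 0, 0, 0, 0, 0, 0, 0, 0, 0, 0, 0, 0, 0, 0, 0, -2, 1, 6, -3, -7, 3]

/-- row 26 -/
def t26 : List ℤ := [0, 0, 0, 0, 0, 0, 0, 0, 0, 0, 0, 0, 0, 0, 0, 0, 0, 0, 0, 0, 0, 0, 0, 0, 0, 2, 0, -8, 0, 8, 4]

/-- row 27 -/
def t27 : List ℤ := [0, 0, 0, 0, 0, 0, 0, 0, 0, 0, 0, 0, 0, 0, 0, 0, 0, 0, 0, 0, 0, 0, 0, 0, 0, 0, 0, -3, 1, 5, -1]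

/-- row 28 -/
def t28 : List ℤ := [0, 0, 0, 0, 0, 0, 0, 0, 0, 0, 0, 0, 0, 0, 0, 0, 0, 0, 0, 0, 0, 0, 0, 0, 0, 0, 0, 1, 0, -1, -2]

/-- row 29 -/
def t29 : List ℤ := [0, 0, 0, 0, 0, 0, 0, 0, 0, 0, 0, 0, 0, 0, 0, 0, 0, 0, 0, 0, 0, 0, 0, 0, 0, 0, 0, 0, 0, -4, 2]

/-- row 30 -/
def t30 : List ℤ := [0, 0, 0, 0, 0, 0, 0, 0, 0, 0, 0, 0, 0, 0, 0, 0, 0, 0, 0, 0, 0, 0, 0, 0, 0, 0, 0, 0, 0, 2]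

/-- row 31 -/
def t31 : List ℤ := [0, 0, 0, 0, 0, 0, 0, 0, 0, 0, 0, 0, 0, 0, 0, 0, 0, 0, 0, 0, 0, 0, 0, 0, 0, 0, 0, 0, 0, 0, 0, 2, -16, 16, 40, -64, -32, 24, 48, 4, -16]

/-- row 32 -/
def t32 : List ℤ := [0, 0, 0, 0, 0, 0, 0, 0, 0, 0, 0, 0, 0, 0, 0, 0, 0, 0, 0, 0, 0, 0, 0, 0, 0, 0, 0, 0, 0, 0, 0, 0, 1, -1, -6, 11, 9, -5, -17, -2, 8]

/-- row 33 -/
def t33 : List ℤ := [0, 0, 0, 0, 0, 0, 0, 0, 0, 0, 0, 0, 0, 0, 0, 0, 0, 0, 0, 0, 0, 0, 0, 0, 0, 0, 0, 0, 0, 0, 0, 0, 0, -2, 1, 8, -4, -9, 0, 2, 2]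

/-- row 34 -/
def t34 : List ℤ := [0, 0, 0, 0, 0, 0, 0, 0, 0, 0, 0, 0, 0, 0, 0, 0, 0, 0, 0, 0, 0, 0, 0, 0, 0, 0, 0, 0, 0, 0, 0, 0, 0, 2, 0, -10, 0, 10, 10, 0, -10]

/-- row 35 -/
def t35 : List ℤ := [0, 0, 0, 0, 0, 0, 0, 0, 0, 0, 0, 0, 0, 0, 0, 0, 0, 0, 0, 0, 0, 0, 0, 0, 0, 0, 0, 0, 0, 0, 0, 0, 0, 0, 0, -3, 1, 3, 6, -2, -7]

/-- row 36 -/
def t36 : List ℤ := [0, 0, 0, 0, 0, 0, 0, 0, 0, 0, 0, 0, 0, 0, 0, 0, 0, 0, 0, 0, 0, 0, 0, 0, 0, 0, 0, 0, 0, 0, 0, 0, 0, 0, 0, 1, 0, -1, -3, 0, 5]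

/-- row 37 -/
def t37 : List ℤ := [0, 0, 0, 0, 0, 0, 0, 0, 0, 0, 0, 0, 0, 0, 0, 0, 0, 0, 0, 0, 0, 0, 0, 0, 0, 0, 0, 0, 0, 0, 0, 0, 0, 0, 0, 0, 0, 4, -8, 2, 8]

/-- row 38 -/
def t38 : List ℤ := [0, 0, 0, 0, 0, 0, 0, 0, 0, 0, 0, 0, 0, 0, 0, 0, 0, 0, 0, 0, 0, 0, 0, 0, 0, 0, 0, 0, 0, 0, 0, 0, 0, 0, 0, 0, 0, -2, 1, 0, -1]

/-- row 39 -/
def t39 : List ℤ := [0, 0, 0, 0, 0, 0, 0, 0, 0, 0, 0, 0, 0, 0, 0, 0, 0, 0, 0, 0, 0, 0, 0, 0, 0, 0, 0, 0, 0, 0, 0, 0, 0, 0, 0, 0, 0, 2, 0, 0, -4]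

/-- row 40 -/
def t40 : List ℤ := [0, 0, 0, 0, 0, 0, 0, 0, 0, 0, 0, 0, 0, 0, 0, 0, 0, 0, 0, 0, 0, 0, 0, 0, 0, 0, 0, 0, 0, 0, 0, 0, 0, 0, 0, 0, 0, 0, 0, 0, 2]

/-- row 41 -/
def t41 : List ℤ := [0, 0, 0, 0, 0, 0, 0, 0, 0, 0, 0, 0, 0, 0, 0, 0, 0, 0, 0, 0, 0, 0, 0, 0, 0, 0, 0, 0, 0, 0, 0, 0, 0, 0, 0, 0, 0, 0, 0, 0, 0, 2, -18, 18, 54, -90, -60, 36, 108, 18, -54, -18, 6]

/-- row 42 -/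
def t42 : List ℤ := [0, 0, 0, 0, 0, 0, 0, 0, 0, 0, 0, 0, 0, 0, 0, 0, 0, 0, 0, 0, 0, 0, 0, 0, 0, 0, 0, 0, 0, 0, 0, 0, 0, 0, 0, 0, 0, 0, 0, 0, 0, 0, 1, -1, -7, 13, 14, -6, -30, -7, 19, 9, -3]

/-- row 43 -/
def t43 : List ℤ := [0, 0, 0, 0, 0, 0, 0, 0, 0, 0, 0, 0, 0, 0, 0, 0, 0, 0, 0, 0, 0, 0, 0, 0, 0, 0, 0, 0, 0, 0, 0, 0, 0, 0, 0, 0, 0, 0, 0, 0, 0, 0, 0, -2, 1, 10, -5, -11, -5, 5, 13, -5, -3]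

/-- row 44 -/
def t44 : List ℤ := [0, 0, 0, 0, 0, 0, 0, 0, 0, 0, 0, 0, 0, 0, 0, 0, 0, 0, 0, 0, 0, 0, 0, 0, 0, 0, 0, 0, 0, 0, 0, 0, 0, 0, 0, 0, 0, 0, 0, 0, 0, 0, 0, 2, 0, -12, 0, 12, 18, 0, -24, -4, 6]

/-- row 45 -/
def t45 : List ℤ := [0, 0, 0, 0, 0, 0, 0, 0, 0, 0, 0, 0, 0, 0, 0, 0, 0, 0, 0, 0, 0, 0, 0, 0, 0, 0, 0, 0, 0, 0, 0, 0, 0, 0, 0, 0, 0, 0, 0, 0, 0, 0, 0, 0, 0, -3, 1, 3, 9, -3, -18, 3, 6]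

/-- row 46 -/
def t46 : List ℤ := [0, 0, 0, 0, 0, 0, 0, 0, 0, 0, 0, 0, 0, 0, 0, 0, 0, 0, 0, 0, 0, 0, 0, 0, 0, 0, 0, 0, 0, 0, 0, 0, 0, 0, 0, 0, 0, 0, 0, 0, 0, 0, 0, 0, 0, 1, 0, -1, -4, 0, 7, 2, -3]

/-- row 47 -/
def t47 : List ℤ := [0, 0, 0, 0, 0, 0, 0, 0, 0, 0, 0, 0, 0, 0, 0, 0, 0, 0, 0, 0, 0, 0, 0, 0, 0, 0, 0, 0, 0, 0, 0, 0, 0, 0, 0, 0, 0, 0, 0, 0, 0, 0, 0, 0, 0, 0, 0, 2, -4, 1, 7, -1, -3]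

/-- row 48 -/
def t48 : List ℤ := [0, 0, 0, 0, 0, 0, 0, 0, 0, 0, 0, 0, 0, 0, 0, 0, 0, 0, 0, 0, 0, 0, 0, 0, 0, 0, 0, 0, 0, 0, 0, 0, 0, 0, 0, 0, 0, 0, 0, 0, 0, 0, 0, 0, 0, 0, 0, -2, 1, 0, 4, -2, -3]

/-- row 49 -/
def t49 : List ℤ := [0, 0, 0, 0, 0, 0, 0, 0, 0, 0, 0, 0, 0, 0, 0, 0, 0, 0, 0, 0, 0, 0, 0, 0, 0, 0, 0, 0, 0, 0, 0, 0, 0, 0, 0, 0, 0, 0, 0, 0, 0, 0, 0, 0, 0, 0, 0, 2, 0, 0, -6, 0, 6]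

/-- row 50 -/
def t50 : List ℤ := [0, 0, 0, 0, 0, 0, 0, 0, 0, 0, 0, 0, 0, 0, 0, 0, 0, 0, 0, 0, 0, 0, 0, 0, 0, 0, 0, 0, 0, 0, 0, 0, 0, 0, 0, 0, 0, 0, 0, 0, 0, 0, 0, 0, 0, 0, 0, 0, 0, 0, -6, 2, 6]

/-- row 51 -/
def t51 : List ℤ := [0, 0, 0, 0, 0, 0, 0, 0, 0, 0, 0, 0, 0, 0, 0, 0, 0, 0, 0, 0, 0, 0, 0, 0, 0, 0, 0, 0, 0, 0, 0, 0, 0, 0, 0, 0, 0, 0, 0, 0, 0, 0, 0, 0, 0, 0, 0, 0, 0, 0, 1, 0, -3]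

/-- row 52 -/
def t52 : List ℤ := [0, 0, 0, 0, 0, 0, 0, 0, 0, 0, 0, 0, 0, 0, 0, 0, 0, 0, 0, 0, 0, 0, 0, 0, 0, 0, 0, 0, 0, 0, 0, 0, 0, 0, 0, 0, 0, 0, 0, 0, 0, 0, 0, 0, 0, 0, 0, 0, 0, 0, 0, 0, 6]

/-- row 53 -/
def t53 : List ℤ := [0, 0, 0, 0, 0, 0, 0, 0, 0, 0, 0, 0, 0, 0, 0, 0, 0, 0, 0, 0, 0, 0, 0, 0, 0, 0, 0, 0, 0, 0, 0, 0, 0, 0, 0, 0, 0, 0, 0, 0, 0, 0, 0, 0, 0, 0, 0, 0, 0, 0, 0, 0, 0, 2, -20, 20, 70, -120, -100, 50, 200, 50, -120, -80, 20, -4, 30]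

/-- row 54 -/
def t54 : List ℤ := [0, 0, 0, 0, 0, 0, 0, 0, 0, 0, 0, 0, 0, 0, 0, 0, 0, 0, 0, 0, 0, 0, 0, 0, 0, 0, 0, 0, 0, 0, 0, 0, 0, 0, 0, 0, 0, 0, 0, 0, 0, 0, 0, 0, 0, 0, 0, 0, 0, 0, 0, 0, 0, 0, 1, -1, -8, 15, 20, -7, -46, -16, 33, 31, -7, 2, -15]

/-- row 55 -/
def t55 : List ℤ := [0, 0, 0, 0, 0, 0, 0, 0, 0, 0, 0, 0, 0, 0, 0, 0, 0, 0, 0, 0, 0, 0, 0, 0, 0, 0, 0, 0, 0, 0, 0, 0, 0, 0, 0, 0, 0, 0, 0, 0, 0, 0, 0, 0, 0, 0, 0, 0, 0, 0, 0, 0, 0, 0, 0, -2, 1, 12, -6, -13, -12, 9, 28, -8, -10, -2, 1]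

/-- row 56 -/
def t56 : List ℤ := [0, 0, 0, 0, 0, 0, 0, 0, 0, 0, 0, 0, 0, 0, 0, 0, 0, 0, 0, 0, 0, 0, 0, 0, 0, 0, 0, 0, 0, 0, 0, 0, 0, 0, 0, 0, 0, 0, 0, 0, 0, 0, 0, 0, 0, 0, 0, 0, 0, 0, 0, 0, 0, 0, 0, 2, 0, -14, 0, 14, 28, 0, -42, -14, 14, 0, 14]

/-- row 57 -/
def t57 : List ℤ := [0, 0, 0, 0, 0, 0, 0, 0, 0, 0, 0, 0, 0, 0, 0, 0, 0, 0, 0, 0, 0, 0, 0, 0, 0, 0, 0, 0, 0, 0, 0, 0, 0, 0, 0, 0, 0, 0, 0, 0, 0, 0, 0, 0, 0, 0, 0, 0, 0, 0, 0, 0, 0, 0, 0, 0, 0, -3, 1, 3, 12, -4, -24, -2, 11, 2, 6]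

/-- row 58 -/
def t58 : List ℤ := [0, 0, 0, 0, 0, 0, 0, 0, 0, 0, 0, 0, 0, 0, 0, 0, 0, 0, 0, 0, 0, 0, 0, 0, 0, 0, 0, 0, 0, 0, 0, 0, 0, 0, 0, 0, 0, 0, 0, 0, 0, 0, 0, 0, 0, 0, 0, 0, 0, 0, 0, 0, 0, 0, 0, 0, 0, 1, 0, -1, -5, 0, 9, 5, -4, 0, -7]

/-- row 59 -/
def t59 : List ℤ := [0, 0, 0, 0, 0, 0, 0, 0, 0, 0, 0, 0, 0, 0, 0, 0, 0, 0, 0, 0, 0, 0, 0, 0, 0, 0, 0, 0, 0, 0, 0, 0, 0, 0, 0, 0, 0, 0, 0, 0, 0, 0, 0, 0, 0, 0, 0, 0, 0, 0, 0, 0, 0, 0, 0, 0, 0, 0, 0, 2, -4, 1, 0, 8, 2, -2, -9]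

/-- row 60 -/
def t60 : List ℤ := [0, 0, 0, 0, 0, 0, 0, 0, 0, 0, 0, 0, 0, 0, 0, 0, 0, 0, 0, 0, 0, 0, 0, 0, 0, 0, 0, 0, 0, 0, 0, 0, 0, 0, 0, 0, 0, 0, 0, 0, 0, 0, 0, 0, 0, 0, 0, 0, 0, 0, 0, 0, 0, 0, 0, 0, 0, 0, 0, -2, 1, 0, 6, -3, -7, 0, 3]

/-- row 61 -/
def t61 : List ℤ := [0, 0, 0, 0, 0, 0, 0, 0, 0, 0, 0, 0, 0, 0, 0, 0, 0, 0, 0, 0, 0, 0, 0, 0, 0, 0, 0, 0, 0, 0, 0, 0, 0, 0, 0, 0, 0, 0, 0, 0, 0, 0, 0, 0, 0, 0, 0, 0, 0, 0, 0, 0, 0, 0, 0, 0, 0, 0, 0, 2, 0, 0, -8, 0, 8, 0, 4]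

/-- row 62 -/
def t62 : List ℤ := [0, 0, 0, 0, 0, 0, 0, 0, 0, 0, 0, 0, 0, 0, 0, 0, 0, 0, 0, 0, 0, 0, 0, 0, 0, 0, 0, 0, 0, 0, 0, 0, 0, 0, 0, 0, 0, 0, 0, 0, 0, 0, 0, 0, 0, 0, 0, 0, 0, 0, 0, 0, 0, 0, 0, 0, 0, 0, 0, 0, 0, 0, 10, -10, -10, 2, 10]

/-- row 63 -/
def t63 : List ℤ := [0, 0, 0, 0, 0, 0, 0, 0, 0, 0, 0, 0, 0, 0, 0, 0, 0, 0, 0, 0, 0, 0, 0, 0, 0, 0, 0, 0, 0, 0, 0, 0, 0, 0, 0, 0, 0, 0, 0, 0, 0, 0, 0, 0, 0, 0, 0, 0, 0, 0, 0, 0, 0, 0, 0, 0, 0, 0, 0, 0, 0, 0, -3, 1, 5, 0, -1]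

/-- row 64 -/
def t64 : List ℤ := [0, 0, 0, 0, 0, 0, 0, 0, 0, 0, 0, 0, 0, 0, 0, 0, 0, 0, 0, 0, 0, 0, 0, 0, 0, 0, 0, 0, 0, 0, 0, 0, 0, 0, 0, 0, 0, 0, 0, 0, 0, 0, 0, 0, 0, 0, 0, 0, 0, 0, 0, 0, 0, 0, 0, 0, 0, 0, 0, 0, 0, 0, 1, 0, -1, 0, -2]

/-- row 65 -/
def t65 : List ℤ := [0, 0, 0, 0, 0, 0, 0, 0, 0, 0, 0, 0, 0, 0, 0, 0, 0, 0, 0, 0, 0, 0, 0, 0, 0, 0, 0, 0, 0, 0, 0, 0, 0, 0, 0, 0, 0, 0, 0, 0, 0, 0, 0, 0, 0, 0, 0, 0, 0, 0, 0, 0, 0, 0, 0, 0, 0, 0, 0, 0, 0, 0, 0, 0, -4, 0, 2]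

/-- row 66 -/
def t66 : List ℤ := [0, 0, 0, 0, 0, 0, 0, 0, 0, 0, 0, 0, 0, 0, 0, 0, 0, 0, 0, 0, 0, 0, 0, 0, 0, 0, 0, 0, 0, 0, 0, 0, 0, 0, 0, 0, 0, 0, 0, 0, 0, 0, 0, 0, 0, 0, 0, 0, 0, 0, 0, 0, 0, 0, 0, 0, 0, 0, 0, 0, 0, 0, 0, 0, 2]

/-- row 0 -/
def v0 : List ℤ := [6]

/-- row 1 -/
def v1 : List ℤ := [2]

/-- row 2 -/
def v2 : List ℤ := [2, -4]

/-- row 3 -/
def v3 : List ℤ := [0, 2]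

/-- row 4 -/
def v4 : List ℤ := [2, -6, 6]

/-- row 5 -/
def v5 : List ℤ := [0, 1, -3]

/-- row 6 -/
def v6 : List ℤ := [0, 0, 6]

/-- row 7 -/
def v7 : List ℤ := [2, -8, 8, 4]

/-- row 8 -/
def v8 : List ℤ := [0, 1, -1, -2]

/-- row 9 -/
def v9 : List ℤ := [0, 0, -4, 2]

/-- row 10 -/
def v10 : List ℤ := [0, 0, 2]

/-- row 11 -/
def v11 : List ℤ := [2, -10, 10, 10, -10]

/-- row 12 -/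
def v12 : List ℤ := [0, 1, -1, -3, 5]

/-- row 13 -/
def v13 : List ℤ := [0, 0, -2, 1, -1]

/-- row 14 -/
def v14 : List ℤ := [0, 0, 2, 0, -4]

/-- row 15 -/
def v15 : List ℤ := [0, 0, 0, 0, 2]

/-- row 16 -/
def v16 : List ℤ := [2, -12, 12, 18, -24, 6, -4]

/-- row 17 -/
def v17 : List ℤ := [0, 1, -1, -4, 7, -3, 2]

/-- row 18 -/
def v18 : List ℤ := [0, 0, -2, 1, 4, -3, -2]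

/-- row 19 -/
def v19 : List ℤ := [0, 0, 2, 0, -6, 6]

/-- row 20 -/
def v20 : List ℤ := [0, 0, 0, 0, -6, 6, 2]

/-- row 21 -/
def v21 : List ℤ := [0, 0, 0, 0, 1, -3]

/-- row 22 -/
def v22 : List ℤ := [0, 0, 0, 0, 0, 6]

/-- row 23 -/
def v23 : List ℤ := [2, -14, 14, 28, -42, 14, -14, 14]

/-- row 24 -/
def v24 : List ℤ := [0, 1, -1, -5, 9, -4, 5, -7]

/-- row 25 -/
def v25 : List ℤ := [0, 0, -2, 1, 6, -7, -3, 3]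

/-- row 26 -/
def v26 : List ℤ := [0, 0, 2, 0, -8, 8, 0, 4]

/-- row 27 -/
def v27 : List ℤ := [0, 0, 0, 0, -3, 5, 1, -1]

/-- row 28 -/
def v28 : List ℤ := [0, 0, 0, 0, 1, -1, 0, -2]

/-- row 29 -/
def v29 : List ℤ := [0, 0, 0, 0, 0, -4, 0, 2]

/-- row 30 -/
def v30 : List ℤ := [0, 0, 0, 0, 0, 2]

/-- row 31 -/
def v31 : List ℤ := [2, -16, 16, 40, -64, 24, -32, 48, -16, 0, 4]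

/-- row 32 -/
def v32 : List ℤ := [0, 1, -1, -6, 11, -5, 9, -17, 8, 0, -2]

/-- row 33 -/
def v33 : List ℤ := [0, 0, -2, 1, 8, -9, -4, 0, 2, 0, 2]

/-- row 34 -/
def v34 : List ℤ := [0, 0, 2, 0, -10, 10, 0, 10, -10]

/-- row 35 -/
def v35 : List ℤ := [0, 0, 0, 0, -3, 3, 1, 6, -7, 0, -2]

/-- row 36 -/
def v36 : List ℤ := [0, 0, 0, 0, 1, -1, 0, -3, 5]

/-- row 37 -/
def v37 : List ℤ := [0, 0, 0, 0, 0, 4, 0, -8, 8, 0, 2]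

/-- row 38 -/
def v38 : List ℤ := [0, 0, 0, 0, 0, -2, 0, 1, -1]

/-- row 39 -/
def v39 : List ℤ := [0, 0, 0, 0, 0, 2, 0, 0, -4]

/-- row 40 -/
def v40 : List ℤ := [0, 0, 0, 0, 0, 0, 0, 0, 2]

/-- row 41 -/
def v41 : List ℤ := [2, -18, 18, 54, -90, 36, -60, 108, -54, 6, 18, -18]

/-- row 42 -/
def v42 : List ℤ := [0, 1, -1, -7, 13, -6, 14, -30, 19, -3, -7, 9]

/-- row 43 -/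
def v43 : List ℤ := [0, 0, -2, 1, 10, -11, -5, -5, 13, -3, 5, -5]

/-- row 44 -/
def v44 : List ℤ := [0, 0, 2, 0, -12, 12, 0, 18, -24, 6, 0, -4]

/-- row 45 -/
def v45 : List ℤ := [0, 0, 0, 0, -3, 3, 1, 9, -18, 6, -3, 3]

/-- row 46 -/
def v46 : List ℤ := [0, 0, 0, 0, 1, -1, 0, -4, 7, -3, 0, 2]

/-- row 47 -/
def v47 : List ℤ := [0, 0, 0, 0, 0, 2, 0, -4, 7, -3, 1, -1]

/-- row 48 -/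
def v48 : List ℤ := [0, 0, 0, 0, 0, -2, 0, 1, 4, -3, 0, -2]

/-- row 49 -/
def v49 : List ℤ := [0, 0, 0, 0, 0, 2, 0, 0, -6, 6]

/-- row 50 -/
def v50 : List ℤ := [0, 0, 0, 0, 0, 0, 0, 0, -6, 6, 0, 2]

/-- row 51 -/
def v51 : List ℤ := [0, 0, 0, 0, 0, 0, 0, 0, 1, -3]

/-- row 52 -/
def v52 : List ℤ := [0, 0, 0, 0, 0, 0, 0, 0, 0, 6]

/-- row 53 -/
def v53 : List ℤ := [2, -20, 20, 70, -120, 50, -100, 200, -120, 20, 50, -80, 30, -4]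

/-- row 54 -/
def v54 : List ℤ := [0, 1, -1, -8, 15, -7, 20, -46, 33, -7, -16, 31, -15, 2]

/-- row 55 -/
def v55 : List ℤ := [0, 0, -2, 1, 12, -13, -6, -12, 28, -10, 9, -8, 1, -2]

/-- row 56 -/
def v56 : List ℤ := [0, 0, 2, 0, -14, 14, 0, 28, -42, 14, 0, -14, 14]

/-- row 57 -/
def v57 : List ℤ := [0, 0, 0, 0, -3, 3, 1, 12, -24, 11, -4, -2, 6, 2]

/-- row 58 -/
def v58 : List ℤ := [0, 0, 0, 0, 1, -1, 0, -5, 9, -4, 0, 5, -7]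

/-- row 59 -/
def v59 : List ℤ := [0, 0, 0, 0, 0, 2, 0, -4, 0, 2, 1, 8, -9, -2]

/-- row 60 -/
def v60 : List ℤ := [0, 0, 0, 0, 0, -2, 0, 1, 6, -7, 0, -3, 3]

/-- row 61 -/
def v61 : List ℤ := [0, 0, 0, 0, 0, 2, 0, 0, -8, 8, 0, 0, 4]

/-- row 62 -/
def v62 : List ℤ := [0, 0, 0, 0, 0, 0, 0, 0, 10, -10, 0, -10, 10, 2]

/-- row 63 -/
def v63 : List ℤ := [0, 0, 0, 0, 0, 0, 0, 0, -3, 5, 0, 1, -1]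

/-- row 64 -/
def v64 : List ℤ := [0, 0, 0, 0, 0, 0, 0, 0, 1, -1, 0, 0, -2]

/-- row 65 -/
def v65 : List ℤ := [0, 0, 0, 0, 0, 0, 0, 0, 0, -4, 0, 0, 2]

/-- row 66 -/
def v66 : List ℤ := [0, 0, 0, 0, 0, 0, 0, 0, 0, 2]

/-- monomials in terms of elementary functions -/
def T : List (List ℤ) :=
  [t0, t1, t2, t3, t4, t5, t6, t7, t8, t9, t10, t11, t12, t13, t14, t15, t16, t17, t18, t19, t20, t21, t22, t23, t24, t25, t26, t27, t28, t29, t30, t31, t32, t33, t34, t35, t36, t37, t38, t39, t40, t41, t42, t43, t44, t45, t46, t47, t48, t49, t50, t51, t52, t53, t54, t55, t56, t57, t58, t59, t60, t61, t62, t63, t64, t65, t66]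

/-- homogenised version -/
def V : List (List ℤ) :=
  [v0, v1, v2, v3, v4, v5, v6, v7, v8, v9, v10, v11, v12, v13, v14, v15, v16, v17, v18, v19, v20, v21, v22, v23, v24, v25, v26, v27, v28, v29, v30, v31, v32, v33, v34, v35, v36, v37, v38, v39, v40, v41, v42, v43, v44, v45, v46, v47, v48, v49, v50, v51, v52, v53, v54, v55, v56, v57, v58, v59, v60, v61, v62, v63, v64, v65, v66]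

lemma ms_0 (x : Fin 3 → ℝ) : Msym ![0, 0, 0] x
    = 6 := by
  rw [Msym3_pw]
  norm_num only [pw3_0, pw3_1, pw3_2, pw3_3, pw3_4, pw3_5, pw3_6, pw3_7, pw3_8, pw3_9, pw3_10]

lemma ms_1 (x : Fin 3 → ℝ) : Msym ![1, 0, 0] x
    = 2 * (s31 x) := by
  rw [Msym3_pw]
  norm_num only [pw3_0, pw3_1, pw3_2, pw3_3, pw3_4, pw3_5, pw3_6, pw3_7, pw3_8, pw3_9, pw3_10]
  ring

lemma ms_2 (x : Fin 3 → ℝ) : Msym ![2, 0, 0] x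
    = 2 * (s31 x ^ 2) - 4 * (s32 x) := by
  rw [Msym3_pw]
  norm_num only [pw3_0, pw3_1, pw3_2, pw3_3, pw3_4, pw3_5, pw3_6, pw3_7, pw3_8, pw3_9, pw3_10]
  ring

lemma ms_3 (x : Fin 3 → ℝ) : Msym ![1, 1, 0] x
    = 2 * (s32 x) := by
  rw [Msym3_pw]
  norm_num only [pw3_0, pw3_1, pw3_2, pw3_3, pw3_4, pw3_5, pw3_6, pw3_7, pw3_8, pw3_9, pw3_10]
  ring

lemma ms_4 (x : Fin 3 → ℝ) : Msym ![3, 0, 0] x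
    = 2 * (s31 x ^ 3) - 6 * (s31 x * s32 x) + 6 * (s33 x) := by
  rw [Msym3_pw]
  norm_num only [pw3_0, pw3_1, pw3_2, pw3_3, pw3_4, pw3_5, pw3_6, pw3_7, pw3_8, pw3_9, pw3_10]
  ring

lemma ms_5 (x : Fin 3 → ℝ) : Msym ![2, 1, 0] x
    = s31 x * s32 x - 3 * (s33 x) := by
  rw [Msym3_pw]
  norm_num only [pw3_0, pw3_1, pw3_2, pw3_3, pw3_4, pw3_5, pw3_6, pw3_7, pw3_8, pw3_9, pw3_10]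
  ring

lemma ms_6 (x : Fin 3 → ℝ) : Msym ![1, 1, 1] x
    = 6 * (s33 x) := by
  rw [Msym3_pw]
  norm_num only [pw3_0, pw3_1, pw3_2, pw3_3, pw3_4, pw3_5, pw3_6, pw3_7, pw3_8, pw3_9, pw3_10]
  ring

lemma ms_7 (x : Fin 3 → ℝ) : Msym ![4, 0, 0] x
    = 2 * (s31 x ^ 4) - 8 * (s31 x ^ 2 * s32 x) + 8 * (s31 x * s33 x) + 4 * (s32 x ^ 2) := by
  rw [Msym3_pw]
  norm_num only [pw3_0, pw3_1, pw3_2, pw3_3, pw3_4, pw3_5, pw3_6, pw3_7, pw3_8, pw3_9, pw3_10]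
  ring

lemma ms_8 (x : Fin 3 → ℝ) : Msym ![3, 1, 0] x
    = s31 x ^ 2 * s32 x - s31 x * s33 x - 2 * (s32 x ^ 2) := by
  rw [Msym3_pw]
  norm_num only [pw3_0, pw3_1, pw3_2, pw3_3, pw3_4, pw3_5, pw3_6, pw3_7, pw3_8, pw3_9, pw3_10]
  ring

lemma ms_9 (x : Fin 3 → ℝ) : Msym ![2, 2, 0] x
    = -(4 * (s31 x * s33 x)) + 2 * (s32 x ^ 2) := by
  rw [Msym3_pw]
  norm_num only [pw3_0, pw3_1, pw3_2, pw3_3, pw3_4, pw3_5, pw3_6, pw3_7, pw3_8, pw3_9, pw3_10]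
  ring

lemma ms_10 (x : Fin 3 → ℝ) : Msym ![2, 1, 1] x
    = 2 * (s31 x * s33 x) := by
  rw [Msym3_pw]
  norm_num only [pw3_0, pw3_1, pw3_2, pw3_3, pw3_4, pw3_5, pw3_6, pw3_7, pw3_8, pw3_9, pw3_10]
  ring

lemma ms_11 (x : Fin 3 → ℝ) : Msym ![5, 0, 0] x
    = 2 * (s31 x ^ 5) - 10 * (s31 x ^ 3 * s32 x) + 10 * (s31 x ^ 2 * s33 x) + 10 * (s31 x * s32 x ^ 2) - 10 * (s32 x * s33 x) := by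
  rw [Msym3_pw]
  norm_num only [pw3_0, pw3_1, pw3_2, pw3_3, pw3_4, pw3_5, pw3_6, pw3_7, pw3_8, pw3_9, pw3_10]
  ring

lemma ms_12 (x : Fin 3 → ℝ) : Msym ![4, 1, 0] x
    = s31 x ^ 3 * s32 x - s31 x ^ 2 * s33 x - 3 * (s31 x * s32 x ^ 2) + 5 * (s32 x * s33 x) := by
  rw [Msym3_pw]
  norm_num only [pw3_0, pw3_1, pw3_2, pw3_3, pw3_4, pw3_5, pw3_6, pw3_7, pw3_8, pw3_9, pw3_10]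
  ring

lemma ms_13 (x : Fin 3 → ℝ) : Msym ![3, 2, 0] x
    = -(2 * (s31 x ^ 2 * s33 x)) + s31 x * s32 x ^ 2 - s32 x * s33 x := by
  rw [Msym3_pw]
  norm_num only [pw3_0, pw3_1, pw3_2, pw3_3, pw3_4, pw3_5, pw3_6, pw3_7, pw3_8, pw3_9, pw3_10]
  ring

lemma ms_14 (x : Fin 3 → ℝ) : Msym ![3, 1, 1] x
    = 2 * (s31 x ^ 2 * s33 x) - 4 * (s32 x * s33 x) := by
  rw [Msym3_pw]
  norm_num only [pw3_0, pw3_1, pw3_2, pw3_3, pw3_4, pw3_5, pw3_6, pw3_7, pw3_8, pw3_9, pw3_10]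
  ring

lemma ms_15 (x : Fin 3 → ℝ) : Msym ![2, 2, 1] x
    = 2 * (s32 x * s33 x) := by
  rw [Msym3_pw]
  norm_num only [pw3_0, pw3_1, pw3_2, pw3_3, pw3_4, pw3_5, pw3_6, pw3_7, pw3_8, pw3_9, pw3_10]
  ring

lemma ms_16 (x : Fin 3 → ℝ) : Msym ![6, 0, 0] x
    = 2 * (s31 x ^ 6) - 12 * (s31 x ^ 4 * s32 x) + 12 * (s31 x ^ 3 * s33 x) + 18 * (s31 x ^ 2 * s32 x ^ 2) - 24 * (s31 x * s32 x * s33 x) - 4 * (s32 x ^ 3) + 6 * (s33 x ^ 2) := by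
  rw [Msym3_pw]
  norm_num only [pw3_0, pw3_1, pw3_2, pw3_3, pw3_4, pw3_5, pw3_6, pw3_7, pw3_8, pw3_9, pw3_10]
  ring

lemma ms_17 (x : Fin 3 → ℝ) : Msym ![5, 1, 0] x
    = s31 x ^ 4 * s32 x - s31 x ^ 3 * s33 x - 4 * (s31 x ^ 2 * s32 x ^ 2) + 7 * (s31 x * s32 x * s33 x) + 2 * (s32 x ^ 3) - 3 * (s33 x ^ 2) := by
  rw [Msym3_pw]
  norm_num only [pw3_0, pw3_1, pw3_2, pw3_3, pw3_4, pw3_5, pw3_6, pw3_7, pw3_8, pw3_9, pw3_10]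
  ring

lemma ms_18 (x : Fin 3 → ℝ) : Msym ![4, 2, 0] x
    = -(2 * (s31 x ^ 3 * s33 x)) + s31 x ^ 2 * s32 x ^ 2 + 4 * (s31 x * s32 x * s33 x) - 2 * (s32 x ^ 3) - 3 * (s33 x ^ 2) := by
  rw [Msym3_pw]
  norm_num only [pw3_0, pw3_1, pw3_2, pw3_3, pw3_4, pw3_5, pw3_6, pw3_7, pw3_8, pw3_9, pw3_10]
  ring

lemma ms_19 (x : Fin 3 → ℝ) : Msym ![4, 1, 1] x
    = 2 * (s31 x ^ 3 * s33 x) - 6 * (s31 x * s32 x * s33 x) + 6 * (s33 x ^ 2) := by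
  rw [Msym3_pw]
  norm_num only [pw3_0, pw3_1, pw3_2, pw3_3, pw3_4, pw3_5, pw3_6, pw3_7, pw3_8, pw3_9, pw3_10]
  ring

lemma ms_20 (x : Fin 3 → ℝ) : Msym ![3, 3, 0] x
    = -(6 * (s31 x * s32 x * s33 x)) + 2 * (s32 x ^ 3) + 6 * (s33 x ^ 2) := by
  rw [Msym3_pw]
  norm_num only [pw3_0, pw3_1, pw3_2, pw3_3, pw3_4, pw3_5, pw3_6, pw3_7, pw3_8, pw3_9, pw3_10]
  ring

lemma ms_21 (x : Fin 3 → ℝ) : Msym ![3, 2, 1] x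
    = s31 x * s32 x * s33 x - 3 * (s33 x ^ 2) := by
  rw [Msym3_pw]
  norm_num only [pw3_0, pw3_1, pw3_2, pw3_3, pw3_4, pw3_5, pw3_6, pw3_7, pw3_8, pw3_9, pw3_10]
  ring

lemma ms_22 (x : Fin 3 → ℝ) : Msym ![2, 2, 2] x
    = 6 * (s33 x ^ 2) := by
  rw [Msym3_pw]
  norm_num only [pw3_0, pw3_1, pw3_2, pw3_3, pw3_4, pw3_5, pw3_6, pw3_7, pw3_8, pw3_9, pw3_10]
  ring

lemma ms_23 (x : Fin 3 → ℝ) : Msym ![7, 0, 0] x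
    = 2 * (s31 x ^ 7) - 14 * (s31 x ^ 5 * s32 x) + 14 * (s31 x ^ 4 * s33 x) + 28 * (s31 x ^ 3 * s32 x ^ 2) - 42 * (s31 x ^ 2 * s32 x * s33 x) - 14 * (s31 x * s32 x ^ 3) + 14 * (s31 x * s33 x ^ 2) + 14 * (s32 x ^ 2 * s33 x) := by
  rw [Msym3_pw]
  norm_num only [pw3_0, pw3_1, pw3_2, pw3_3, pw3_4, pw3_5, pw3_6, pw3_7, pw3_8, pw3_9, pw3_10]
  ring

lemma ms_24 (x : Fin 3 → ℝ) : Msym ![6, 1, 0] x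
    = s31 x ^ 5 * s32 x - s31 x ^ 4 * s33 x - 5 * (s31 x ^ 3 * s32 x ^ 2) + 9 * (s31 x ^ 2 * s32 x * s33 x) + 5 * (s31 x * s32 x ^ 3) - 4 * (s31 x * s33 x ^ 2) - 7 * (s32 x ^ 2 * s33 x) := by
  rw [Msym3_pw]
  norm_num only [pw3_0, pw3_1, pw3_2, pw3_3, pw3_4, pw3_5, pw3_6, pw3_7, pw3_8, pw3_9, pw3_10]
  ring

lemma ms_25 (x : Fin 3 → ℝ) : Msym ![5, 2, 0] x
    = -(2 * (s31 x ^ 4 * s33 x)) + s31 x ^ 3 * s32 x ^ 2 + 6 * (s31 x ^ 2 * s32 x * s33 x) - 3 * (s31 x * s32 x ^ 3) - 7 * (s31 x * s33 x ^ 2) + 3 * (s32 x ^ 2 * s33 x) := by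
  rw [Msym3_pw]
  norm_num only [pw3_0, pw3_1, pw3_2, pw3_3, pw3_4, pw3_5, pw3_6, pw3_7, pw3_8, pw3_9, pw3_10]
  ring

lemma ms_26 (x : Fin 3 → ℝ) : Msym ![5, 1, 1] x
    = 2 * (s31 x ^ 4 * s33 x) - 8 * (s31 x ^ 2 * s32 x * s33 x) + 8 * (s31 x * s33 x ^ 2) + 4 * (s32 x ^ 2 * s33 x) := by
  rw [Msym3_pw]
  norm_num only [pw3_0, pw3_1, pw3_2, pw3_3, pw3_4, pw3_5, pw3_6, pw3_7, pw3_8, pw3_9, pw3_10]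
  ring

lemma ms_27 (x : Fin 3 → ℝ) : Msym ![4, 3, 0] x
    = -(3 * (s31 x ^ 2 * s32 x * s33 x)) + s31 x * s32 x ^ 3 + 5 * (s31 x * s33 x ^ 2) - s32 x ^ 2 * s33 x := by
  rw [Msym3_pw]
  norm_num only [pw3_0, pw3_1, pw3_2, pw3_3, pw3_4, pw3_5, pw3_6, pw3_7, pw3_8, pw3_9, pw3_10]
  ring

lemma ms_28 (x : Fin 3 → ℝ) : Msym ![4, 2, 1] x
    = s31 x ^ 2 * s32 x * s33 x - s31 x * s33 x ^ 2 - 2 * (s32 x ^ 2 * s33 x) := by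
  rw [Msym3_pw]
  norm_num only [pw3_0, pw3_1, pw3_2, pw3_3, pw3_4, pw3_5, pw3_6, pw3_7, pw3_8, pw3_9, pw3_10]
  ring

lemma ms_29 (x : Fin 3 → ℝ) : Msym ![3, 3, 1] x
    = -(4 * (s31 x * s33 x ^ 2)) + 2 * (s32 x ^ 2 * s33 x) := by
  rw [Msym3_pw]
  norm_num only [pw3_0, pw3_1, pw3_2, pw3_3, pw3_4, pw3_5, pw3_6, pw3_7, pw3_8, pw3_9, pw3_10]
  ring

lemma ms_30 (x : Fin 3 → ℝ) : Msym ![3, 2, 2] x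
    = 2 * (s31 x * s33 x ^ 2) := by
  rw [Msym3_pw]
  norm_num only [pw3_0, pw3_1, pw3_2, pw3_3, pw3_4, pw3_5, pw3_6, pw3_7, pw3_8, pw3_9, pw3_10]
  ring

lemma ms_31 (x : Fin 3 → ℝ) : Msym ![8, 0, 0] x
    = 2 * (s31 x ^ 8) - 16 * (s31 x ^ 6 * s32 x) + 16 * (s31 x ^ 5 * s33 x) + 40 * (s31 x ^ 4 * s32 x ^ 2) - 64 * (s31 x ^ 3 * s32 x * s33 x) - 32 * (s31 x ^ 2 * s32 x ^ 3) + 24 * (s31 x ^ 2 * s33 x ^ 2) + 48 * (s31 x * s32 x ^ 2 * s33 x) + 4 * (s32 x ^ 4) - 16 * (s32 x * s33 x ^ 2) := by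
  rw [Msym3_pw]
  norm_num only [pw3_0, pw3_1, pw3_2, pw3_3, pw3_4, pw3_5, pw3_6, pw3_7, pw3_8, pw3_9, pw3_10]
  ring

lemma ms_32 (x : Fin 3 → ℝ) : Msym ![7, 1, 0] x
    = s31 x ^ 6 * s32 x - s31 x ^ 5 * s33 x - 6 * (s31 x ^ 4 * s32 x ^ 2) + 11 * (s31 x ^ 3 * s32 x * s33 x) + 9 * (s31 x ^ 2 * s32 x ^ 3) - 5 * (s31 x ^ 2 * s33 x ^ 2) - 17 * (s31 x * s32 x ^ 2 * s33 x) - 2 * (s32 x ^ 4) + 8 * (s32 x * s33 x ^ 2) := by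
  rw [Msym3_pw]
  norm_num only [pw3_0, pw3_1, pw3_2, pw3_3, pw3_4, pw3_5, pw3_6, pw3_7, pw3_8, pw3_9, pw3_10]
  ring

lemma ms_33 (x : Fin 3 → ℝ) : Msym ![6, 2, 0] x
    = -(2 * (s31 x ^ 5 * s33 x)) + s31 x ^ 4 * s32 x ^ 2 + 8 * (s31 x ^ 3 * s32 x * s33 x) - 4 * (s31 x ^ 2 * s32 x ^ 3) - 9 * (s31 x ^ 2 * s33 x ^ 2) + 2 * (s32 x ^ 4) + 2 * (s32 x * s33 x ^ 2) := by
  rw [Msym3_pw]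
  norm_num only [pw3_0, pw3_1, pw3_2, pw3_3, pw3_4, pw3_5, pw3_6, pw3_7, pw3_8, pw3_9, pw3_10]
  ring

lemma ms_34 (x : Fin 3 → ℝ) : Msym ![6, 1, 1] x
    = 2 * (s31 x ^ 5 * s33 x) - 10 * (s31 x ^ 3 * s32 x * s33 x) + 10 * (s31 x ^ 2 * s33 x ^ 2) + 10 * (s31 x * s32 x ^ 2 * s33 x) - 10 * (s32 x * s33 x ^ 2) := by
  rw [Msym3_pw]
  norm_num only [pw3_0, pw3_1, pw3_2, pw3_3, pw3_4, pw3_5, pw3_6, pw3_7, pw3_8, pw3_9, pw3_10]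
  ring

lemma ms_35 (x : Fin 3 → ℝ) : Msym ![5, 3, 0] x
    = -(3 * (s31 x ^ 3 * s32 x * s33 x)) + s31 x ^ 2 * s32 x ^ 3 + 3 * (s31 x ^ 2 * s33 x ^ 2) + 6 * (s31 x * s32 x ^ 2 * s33 x) - 2 * (s32 x ^ 4) - 7 * (s32 x * s33 x ^ 2) := by
  rw [Msym3_pw]
  norm_num only [pw3_0, pw3_1, pw3_2, pw3_3, pw3_4, pw3_5, pw3_6, pw3_7, pw3_8, pw3_9, pw3_10]
  ring

lemma ms_36 (x : Fin 3 → ℝ) : Msym ![5, 2, 1] x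
    = s31 x ^ 3 * s32 x * s33 x - s31 x ^ 2 * s33 x ^ 2 - 3 * (s31 x * s32 x ^ 2 * s33 x) + 5 * (s32 x * s33 x ^ 2) := by
  rw [Msym3_pw]
  norm_num only [pw3_0, pw3_1, pw3_2, pw3_3, pw3_4, pw3_5, pw3_6, pw3_7, pw3_8, pw3_9, pw3_10]
  ring

lemma ms_37 (x : Fin 3 → ℝ) : Msym ![4, 4, 0] x
    = 4 * (s31 x ^ 2 * s33 x ^ 2) - 8 * (s31 x * s32 x ^ 2 * s33 x) + 2 * (s32 x ^ 4) + 8 * (s32 x * s33 x ^ 2) := by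
  rw [Msym3_pw]
  norm_num only [pw3_0, pw3_1, pw3_2, pw3_3, pw3_4, pw3_5, pw3_6, pw3_7, pw3_8, pw3_9, pw3_10]
  ring

lemma ms_38 (x : Fin 3 → ℝ) : Msym ![4, 3, 1] x
    = -(2 * (s31 x ^ 2 * s33 x ^ 2)) + s31 x * s32 x ^ 2 * s33 x - s32 x * s33 x ^ 2 := by
  rw [Msym3_pw]
  norm_num only [pw3_0, pw3_1, pw3_2, pw3_3, pw3_4, pw3_5, pw3_6, pw3_7, pw3_8, pw3_9, pw3_10]
  ring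

lemma ms_39 (x : Fin 3 → ℝ) : Msym ![4, 2, 2] x
    = 2 * (s31 x ^ 2 * s33 x ^ 2) - 4 * (s32 x * s33 x ^ 2) := by
  rw [Msym3_pw]
  norm_num only [pw3_0, pw3_1, pw3_2, pw3_3, pw3_4, pw3_5, pw3_6, pw3_7, pw3_8, pw3_9, pw3_10]
  ring

lemma ms_40 (x : Fin 3 → ℝ) : Msym ![3, 3, 2] x
    = 2 * (s32 x * s33 x ^ 2) := by
  rw [Msym3_pw]
  norm_num only [pw3_0, pw3_1, pw3_2, pw3_3, pw3_4, pw3_5, pw3_6, pw3_7, pw3_8, pw3_9, pw3_10]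
  ring

lemma ms_41 (x : Fin 3 → ℝ) : Msym ![9, 0, 0] x
    = 2 * (s31 x ^ 9) - 18 * (s31 x ^ 7 * s32 x) + 18 * (s31 x ^ 6 * s33 x) + 54 * (s31 x ^ 5 * s32 x ^ 2) - 90 * (s31 x ^ 4 * s32 x * s33 x) - 60 * (s31 x ^ 3 * s32 x ^ 3) + 36 * (s31 x ^ 3 * s33 x ^ 2) + 108 * (s31 x ^ 2 * s32 x ^ 2 * s33 x) + 18 * (s31 x * s32 x ^ 4) - 54 * (s31 x * s32 x * s33 x ^ 2) - 18 * (s32 x ^ 3 * s33 x) + 6 * (s33 x ^ 3) := by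
  rw [Msym3_pw]
  norm_num only [pw3_0, pw3_1, pw3_2, pw3_3, pw3_4, pw3_5, pw3_6, pw3_7, pw3_8, pw3_9, pw3_10]
  ring

lemma ms_42 (x : Fin 3 → ℝ) : Msym ![8, 1, 0] x
    = s31 x ^ 7 * s32 x - s31 x ^ 6 * s33 x - 7 * (s31 x ^ 5 * s32 x ^ 2) + 13 * (s31 x ^ 4 * s32 x * s33 x) + 14 * (s31 x ^ 3 * s32 x ^ 3) - 6 * (s31 x ^ 3 * s33 x ^ 2) - 30 * (s31 x ^ 2 * s32 x ^ 2 * s33 x) - 7 * (s31 x * s32 x ^ 4) + 19 * (s31 x * s32 x * s33 x ^ 2) + 9 * (s32 x ^ 3 * s33 x) - 3 * (s33 x ^ 3) := by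
  rw [Msym3_pw]
  norm_num only [pw3_0, pw3_1, pw3_2, pw3_3, pw3_4, pw3_5, pw3_6, pw3_7, pw3_8, pw3_9, pw3_10]
  ring

lemma ms_43 (x : Fin 3 → ℝ) : Msym ![7, 2, 0] x
    = -(2 * (s31 x ^ 6 * s33 x)) + s31 x ^ 5 * s32 x ^ 2 + 10 * (s31 x ^ 4 * s32 x * s33 x) - 5 * (s31 x ^ 3 * s32 x ^ 3) - 11 * (s31 x ^ 3 * s33 x ^ 2) - 5 * (s31 x ^ 2 * s32 x ^ 2 * s33 x) + 5 * (s31 x * s32 x ^ 4) + 13 * (s31 x * s32 x * s33 x ^ 2) - 5 * (s32 x ^ 3 * s33 x) - 3 * (s33 x ^ 3) := by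
  rw [Msym3_pw]
  norm_num only [pw3_0, pw3_1, pw3_2, pw3_3, pw3_4, pw3_5, pw3_6, pw3_7, pw3_8, pw3_9, pw3_10]
  ring

lemma ms_44 (x : Fin 3 → ℝ) : Msym ![7, 1, 1] x
    = 2 * (s31 x ^ 6 * s33 x) - 12 * (s31 x ^ 4 * s32 x * s33 x) + 12 * (s31 x ^ 3 * s33 x ^ 2) + 18 * (s31 x ^ 2 * s32 x ^ 2 * s33 x) - 24 * (s31 x * s32 x * s33 x ^ 2) - 4 * (s32 x ^ 3 * s33 x) + 6 * (s33 x ^ 3) := by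
  rw [Msym3_pw]
  norm_num only [pw3_0, pw3_1, pw3_2, pw3_3, pw3_4, pw3_5, pw3_6, pw3_7, pw3_8, pw3_9, pw3_10]
  ring

lemma ms_45 (x : Fin 3 → ℝ) : Msym ![6, 3, 0] x
    = -(3 * (s31 x ^ 4 * s32 x * s33 x)) + s31 x ^ 3 * s32 x ^ 3 + 3 * (s31 x ^ 3 * s33 x ^ 2) + 9 * (s31 x ^ 2 * s32 x ^ 2 * s33 x) - 3 * (s31 x * s32 x ^ 4) - 18 * (s31 x * s32 x * s33 x ^ 2) + 3 * (s32 x ^ 3 * s33 x) + 6 * (s33 x ^ 3) := by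
  rw [Msym3_pw]
  norm_num only [pw3_0, pw3_1, pw3_2, pw3_3, pw3_4, pw3_5, pw3_6, pw3_7, pw3_8, pw3_9, pw3_10]
  ring

lemma ms_46 (x : Fin 3 → ℝ) : Msym ![6, 2, 1] x
    = s31 x ^ 4 * s32 x * s33 x - s31 x ^ 3 * s33 x ^ 2 - 4 * (s31 x ^ 2 * s32 x ^ 2 * s33 x) + 7 * (s31 x * s32 x * s33 x ^ 2) + 2 * (s32 x ^ 3 * s33 x) - 3 * (s33 x ^ 3) := by
  rw [Msym3_pw]
  norm_num only [pw3_0, pw3_1, pw3_2, pw3_3, pw3_4, pw3_5, pw3_6, pw3_7, pw3_8, pw3_9, pw3_10]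
  ring

lemma ms_47 (x : Fin 3 → ℝ) : Msym ![5, 4, 0] x
    = 2 * (s31 x ^ 3 * s33 x ^ 2) - 4 * (s31 x ^ 2 * s32 x ^ 2 * s33 x) + s31 x * s32 x ^ 4 + 7 * (s31 x * s32 x * s33 x ^ 2) - s32 x ^ 3 * s33 x - 3 * (s33 x ^ 3) := by
  rw [Msym3_pw]
  norm_num only [pw3_0, pw3_1, pw3_2, pw3_3, pw3_4, pw3_5, pw3_6, pw3_7, pw3_8, pw3_9, pw3_10]
  ring

lemma ms_48 (x : Fin 3 → ℝ) : Msym ![5, 3, 1] x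
    = -(2 * (s31 x ^ 3 * s33 x ^ 2)) + s31 x ^ 2 * s32 x ^ 2 * s33 x + 4 * (s31 x * s32 x * s33 x ^ 2) - 2 * (s32 x ^ 3 * s33 x) - 3 * (s33 x ^ 3) := by
  rw [Msym3_pw]
  norm_num only [pw3_0, pw3_1, pw3_2, pw3_3, pw3_4, pw3_5, pw3_6, pw3_7, pw3_8, pw3_9, pw3_10]
  ring

lemma ms_49 (x : Fin 3 → ℝ) : Msym ![5, 2, 2] x
    = 2 * (s31 x ^ 3 * s33 x ^ 2) - 6 * (s31 x * s32 x * s33 x ^ 2) + 6 * (s33 x ^ 3) := by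
  rw [Msym3_pw]
  norm_num only [pw3_0, pw3_1, pw3_2, pw3_3, pw3_4, pw3_5, pw3_6, pw3_7, pw3_8, pw3_9, pw3_10]
  ring

lemma ms_50 (x : Fin 3 → ℝ) : Msym ![4, 4, 1] x
    = -(6 * (s31 x * s32 x * s33 x ^ 2)) + 2 * (s32 x ^ 3 * s33 x) + 6 * (s33 x ^ 3) := by
  rw [Msym3_pw]
  norm_num only [pw3_0, pw3_1, pw3_2, pw3_3, pw3_4, pw3_5, pw3_6, pw3_7, pw3_8, pw3_9, pw3_10]
  ring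

lemma ms_51 (x : Fin 3 → ℝ) : Msym ![4, 3, 2] x
    = s31 x * s32 x * s33 x ^ 2 - 3 * (s33 x ^ 3) := by
  rw [Msym3_pw]
  norm_num only [pw3_0, pw3_1, pw3_2, pw3_3, pw3_4, pw3_5, pw3_6, pw3_7, pw3_8, pw3_9, pw3_10]
  ring

lemma ms_52 (x : Fin 3 → ℝ) : Msym ![3, 3, 3] x
    = 6 * (s33 x ^ 3) := by
  rw [Msym3_pw]
  norm_num only [pw3_0, pw3_1, pw3_2, pw3_3, pw3_4, pw3_5, pw3_6, pw3_7, pw3_8, pw3_9, pw3_10]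
  ring

lemma ms_53 (x : Fin 3 → ℝ) : Msym ![10, 0, 0] x
    = 2 * (s31 x ^ 10) - 20 * (s31 x ^ 8 * s32 x) + 20 * (s31 x ^ 7 * s33 x) + 70 * (s31 x ^ 6 * s32 x ^ 2) - 120 * (s31 x ^ 5 * s32 x * s33 x) - 100 * (s31 x ^ 4 * s32 x ^ 3) + 50 * (s31 x ^ 4 * s33 x ^ 2) + 200 * (s31 x ^ 3 * s32 x ^ 2 * s33 x) + 50 * (s31 x ^ 2 * s32 x ^ 4) - 120 * (s31 x ^ 2 * s32 x * s33 x ^ 2) - 80 * (s31 x * s32 x ^ 3 * s33 x) + 20 * (s31 x * s33 x ^ 3) - 4 * (s32 x ^ 5) + 30 * (s32 x ^ 2 * s33 x ^ 2) := by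
  rw [Msym3_pw]
  norm_num only [pw3_0, pw3_1, pw3_2, pw3_3, pw3_4, pw3_5, pw3_6, pw3_7, pw3_8, pw3_9, pw3_10]
  ring

lemma ms_54 (x : Fin 3 → ℝ) : Msym ![9, 1, 0] x
    = s31 x ^ 8 * s32 x - s31 x ^ 7 * s33 x - 8 * (s31 x ^ 6 * s32 x ^ 2) + 15 * (s31 x ^ 5 * s32 x * s33 x) + 20 * (s31 x ^ 4 * s32 x ^ 3) - 7 * (s31 x ^ 4 * s33 x ^ 2) - 46 * (s31 x ^ 3 * s32 x ^ 2 * s33 x) - 16 * (s31 x ^ 2 * s32 x ^ 4) + 33 * (s31 x ^ 2 * s32 x * s33 x ^ 2) + 31 * (s31 x * s32 x ^ 3 * s33 x) - 7 * (s31 x * s33 x ^ 3) + 2 * (s32 x ^ 5) - 15 * (s32 x ^ 2 * s33 x ^ 2) := by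
  rw [Msym3_pw]
  norm_num only [pw3_0, pw3_1, pw3_2, pw3_3, pw3_4, pw3_5, pw3_6, pw3_7, pw3_8, pw3_9, pw3_10]
  ring

lemma ms_55 (x : Fin 3 → ℝ) : Msym ![8, 2, 0] x
    = -(2 * (s31 x ^ 7 * s33 x)) + s31 x ^ 6 * s32 x ^ 2 + 12 * (s31 x ^ 5 * s32 x * s33 x) - 6 * (s31 x ^ 4 * s32 x ^ 3) - 13 * (s31 x ^ 4 * s33 x ^ 2) - 12 * (s31 x ^ 3 * s32 x ^ 2 * s33 x) + 9 * (s31 x ^ 2 * s32 x ^ 4) + 28 * (s31 x ^ 2 * s32 x * s33 x ^ 2) - 8 * (s31 x * s32 x ^ 3 * s33 x) - 10 * (s31 x * s33 x ^ 3) - 2 * (s32 x ^ 5) + s32 x ^ 2 * s33 x ^ 2 := by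
  rw [Msym3_pw]
  norm_num only [pw3_0, pw3_1, pw3_2, pw3_3, pw3_4, pw3_5, pw3_6, pw3_7, pw3_8, pw3_9, pw3_10]
  ring

lemma ms_56 (x : Fin 3 → ℝ) : Msym ![8, 1, 1] x
    = 2 * (s31 x ^ 7 * s33 x) - 14 * (s31 x ^ 5 * s32 x * s33 x) + 14 * (s31 x ^ 4 * s33 x ^ 2) + 28 * (s31 x ^ 3 * s32 x ^ 2 * s33 x) - 42 * (s31 x ^ 2 * s32 x * s33 x ^ 2) - 14 * (s31 x * s32 x ^ 3 * s33 x) + 14 * (s31 x * s33 x ^ 3) + 14 * (s32 x ^ 2 * s33 x ^ 2) := by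
  rw [Msym3_pw]
  norm_num only [pw3_0, pw3_1, pw3_2, pw3_3, pw3_4, pw3_5, pw3_6, pw3_7, pw3_8, pw3_9, pw3_10]
  ring

lemma ms_57 (x : Fin 3 → ℝ) : Msym ![7, 3, 0] x
    = -(3 * (s31 x ^ 5 * s32 x * s33 x)) + s31 x ^ 4 * s32 x ^ 3 + 3 * (s31 x ^ 4 * s33 x ^ 2) + 12 * (s31 x ^ 3 * s32 x ^ 2 * s33 x) - 4 * (s31 x ^ 2 * s32 x ^ 4) - 24 * (s31 x ^ 2 * s32 x * s33 x ^ 2) - 2 * (s31 x * s32 x ^ 3 * s33 x) + 11 * (s31 x * s33 x ^ 3) + 2 * (s32 x ^ 5) + 6 * (s32 x ^ 2 * s33 x ^ 2) := by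
  rw [Msym3_pw]
  norm_num only [pw3_0, pw3_1, pw3_2, pw3_3, pw3_4, pw3_5, pw3_6, pw3_7, pw3_8, pw3_9, pw3_10]
  ring

lemma ms_58 (x : Fin 3 → ℝ) : Msym ![7, 2, 1] x
    = s31 x ^ 5 * s32 x * s33 x - s31 x ^ 4 * s33 x ^ 2 - 5 * (s31 x ^ 3 * s32 x ^ 2 * s33 x) + 9 * (s31 x ^ 2 * s32 x * s33 x ^ 2) + 5 * (s31 x * s32 x ^ 3 * s33 x) - 4 * (s31 x * s33 x ^ 3) - 7 * (s32 x ^ 2 * s33 x ^ 2) := by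
  rw [Msym3_pw]
  norm_num only [pw3_0, pw3_1, pw3_2, pw3_3, pw3_4, pw3_5, pw3_6, pw3_7, pw3_8, pw3_9, pw3_10]
  ring

lemma ms_59 (x : Fin 3 → ℝ) : Msym ![6, 4, 0] x
    = 2 * (s31 x ^ 4 * s33 x ^ 2) - 4 * (s31 x ^ 3 * s32 x ^ 2 * s33 x) + s31 x ^ 2 * s32 x ^ 4 + 8 * (s31 x * s32 x ^ 3 * s33 x) + 2 * (s31 x * s33 x ^ 3) - 2 * (s32 x ^ 5) - 9 * (s32 x ^ 2 * s33 x ^ 2) := by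
  rw [Msym3_pw]
  norm_num only [pw3_0, pw3_1, pw3_2, pw3_3, pw3_4, pw3_5, pw3_6, pw3_7, pw3_8, pw3_9, pw3_10]
  ring

lemma ms_60 (x : Fin 3 → ℝ) : Msym ![6, 3, 1] x
    = -(2 * (s31 x ^ 4 * s33 x ^ 2)) + s31 x ^ 3 * s32 x ^ 2 * s33 x + 6 * (s31 x ^ 2 * s32 x * s33 x ^ 2) - 3 * (s31 x * s32 x ^ 3 * s33 x) - 7 * (s31 x * s33 x ^ 3) + 3 * (s32 x ^ 2 * s33 x ^ 2) := by
  rw [Msym3_pw]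
  norm_num only [pw3_0, pw3_1, pw3_2, pw3_3, pw3_4, pw3_5, pw3_6, pw3_7, pw3_8, pw3_9, pw3_10]
  ring

lemma ms_61 (x : Fin 3 → ℝ) : Msym ![6, 2, 2] x
    = 2 * (s31 x ^ 4 * s33 x ^ 2) - 8 * (s31 x ^ 2 * s32 x * s33 x ^ 2) + 8 * (s31 x * s33 x ^ 3) + 4 * (s32 x ^ 2 * s33 x ^ 2) := by
  rw [Msym3_pw]
  norm_num only [pw3_0, pw3_1, pw3_2, pw3_3, pw3_4, pw3_5, pw3_6, pw3_7, pw3_8, pw3_9, pw3_10]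
  ring

lemma ms_62 (x : Fin 3 → ℝ) : Msym ![5, 5, 0] x
    = 10 * (s31 x ^ 2 * s32 x * s33 x ^ 2) - 10 * (s31 x * s32 x ^ 3 * s33 x) - 10 * (s31 x * s33 x ^ 3) + 2 * (s32 x ^ 5) + 10 * (s32 x ^ 2 * s33 x ^ 2) := by
  rw [Msym3_pw]
  norm_num only [pw3_0, pw3_1, pw3_2, pw3_3, pw3_4, pw3_5, pw3_6, pw3_7, pw3_8, pw3_9, pw3_10]
  ring

lemma ms_63 (x : Fin 3 → ℝ) : Msym ![5, 4, 1] x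
    = -(3 * (s31 x ^ 2 * s32 x * s33 x ^ 2)) + s31 x * s32 x ^ 3 * s33 x + 5 * (s31 x * s33 x ^ 3) - s32 x ^ 2 * s33 x ^ 2 := by
  rw [Msym3_pw]
  norm_num only [pw3_0, pw3_1, pw3_2, pw3_3, pw3_4, pw3_5, pw3_6, pw3_7, pw3_8, pw3_9, pw3_10]
  ring

lemma ms_64 (x : Fin 3 → ℝ) : Msym ![5, 3, 2] x
    = s31 x ^ 2 * s32 x * s33 x ^ 2 - s31 x * s33 x ^ 3 - 2 * (s32 x ^ 2 * s33 x ^ 2) := by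
  rw [Msym3_pw]
  norm_num only [pw3_0, pw3_1, pw3_2, pw3_3, pw3_4, pw3_5, pw3_6, pw3_7, pw3_8, pw3_9, pw3_10]
  ring

lemma ms_65 (x : Fin 3 → ℝ) : Msym ![4, 4, 2] x
    = -(4 * (s31 x * s33 x ^ 3)) + 2 * (s32 x ^ 2 * s33 x ^ 2) := by
  rw [Msym3_pw]
  norm_num only [pw3_0, pw3_1, pw3_2, pw3_3, pw3_4, pw3_5, pw3_6, pw3_7, pw3_8, pw3_9, pw3_10]
  ring

lemma ms_66 (x : Fin 3 → ℝ) : Msym ![4, 3, 3] x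
    = 2 * (s31 x * s33 x ^ 3) := by
  rw [Msym3_pw]
  norm_num only [pw3_0, pw3_1, pw3_2, pw3_3, pw3_4, pw3_5, pw3_6, pw3_7, pw3_8, pw3_9, pw3_10]
  ring

end Vale.Agent.P154.A10
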