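import Mathlib

/-! exact data of the certificate for q = 3 (generated) -/

namespace Vale.Agent.P154.D3

def exps : List (List ℕ) := [
    [6, 0, 0],
    [4, 1, 0],
    [3, 0, 1],
    [2, 2, 0],
    [1, 1, 1],
    [0, 0, 2],
    [0, 3, 0]]

def CUp : List (List ℕ) := [
    [280, 0, 0, 2010, 0, 0, 0],
    [0, 13978, 178704, 0, 0, 0, 202500],
    [0, 178704, 635850, 0, 0, 8201250, 1417500],
    [2010, 0, 0, 810000, 3037500, 0, 0],
    [0, 0, 0, 3037500, 15491250, 0, 0],
    [0, 0, 8201250, 0, 0, 73811250, 5467500],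
    [0, 202500, 1417500, 0, 0, 5467500, 3240000]]

def CUm : List (List ℕ) := [
    [0, 1159, 3159, 0, 0, 0, 0],
    [1159, 0, 0, 102321, 472500, 303750, 0],
    [3159, 0, 0, 955881, 3037500, 0, 0],
    [0, 102321, 955881, 0, 0, 0, 1620000],
    [0, 472500, 3037500, 0, 0, 41006250, 5467500],
    [0, 303750, 0, 0, 41006250, 0, 0],
    [0, 0, 0, 1620000, 5467500, 0, 0]]

-- scale of CU: 221433750

def CPp : List (List ℕ) := [
    [4372, 0, 259308, 911466, 0, 2515050, 0],
    [0, 26298, 0, 6457212, 103267710, 45161550, 0],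
    [259308, 0, 0, 348134922, 2274151950, 0, 0],
    [911466, 6457212, 348134922, 0, 0, 596886975, 689087250],
    [0, 103267710, 2274151950, 0, 0, 18815963850, 4927967100],
    [2515050, 45161550, 0, 596886975, 18815963850, 0, 0],
    [0, 0, 0, 689087250, 4927967100, 0, 0]]

def CPm : List (List ℕ) := [
    [0, 11520, 0, 0, 4273560, 0, 1676700],
    [11520, 0, 25284798, 0, 0, 0, 30107700],
    [0, 25284798, 419357250, 0, 0, 2852066700, 1056904200],
    [0, 0, 0, 215585469, 1485891540, 0, 0],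
    [4273560, 0, 0, 1485891540, 12766065750, 0, 0],
    [0, 0, 2852066700, 0, 0, 31182300675, 4530042450],
    [1676700, 30107700, 1056904200, 0, 0, 4530042450, 2168993700]]

-- scale of CP: 21257640000

-- (a) condition, weight 4, D-degree 4, M = 4, D in (0, 12], scale 64800
def tsA : List (List ℕ × List ℕ × List ℕ) := [
    ([0, 2, 0], [0, 0, 0, 0, 30888], [0, 8352, 16704, 25056]),
    ([1, 0, 1], [0, 21600, 43200, 39744], [0, 0, 0, 0, 60912]),
    ([2, 1, 0], [0, 0, 19872, 0, 3720], [0, 1632, 0, 17832]),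
    ([4, 0, 0], [137, 642, 0, 430], [0, 0, 884, 0, 69])]

-- tree for (a), initial cell [[6,0,0],[3,3,0],[2,2,2]]
-- treeA := (sd 3 leaf (sd 5 leaf (sy 0 2 leaf (sy 0 1 leaf (sy 0 2 leaf (sy 0 1 leaf (sy 0 2 leaf (sy 0 1 leaf (sy 0 2 leaf (sd 8 (sy 0 2 leaf leaf) (sy 0 2 leaf (sy 0 1 leaf (sy 0 2 leaf (sy 0 1 leaf (sy 0 2 leaf (sy 0 1 leaf (sy 0 2 leaf (sy 0 2 leaf (sd 10 leaf (sy 0 1 leaf leaf))))))))))))))))))))

-- condition f >= 0, weight 4, scale 1350
def tsf : List (List ℕ × List ℕ × List ℕ) := [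
    ([1, 0, 1], [], [171]),
    ([2, 1, 0], [], [11]),
    ([4, 0, 0], [10], [])]

-- treef := leaf

-- condition g >= 0, weight 6, scale 12150
def tsg : List (List ℕ × List ℕ × List ℕ) := [
    ([1, 1, 1], [2835], []),
    ([2, 2, 0], [63], []),
    ([3, 0, 1], [], [513]),
    ([4, 1, 0], [], [31]),
    ([6, 0, 0], [4], [])]

-- treeg := (sy 0 2 leaf (sy 0 2 leaf (sy 0 1 leaf (sy 0 1 leaf leaf))))

-- condition H0 >= 0, weight 4, scale 2025/29
def tsH0 : List (List ℕ × List ℕ × List ℕ) := [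
    ([0, 2, 0], [9], []),
    ([2, 1, 0], [], [6]),
    ([4, 0, 0], [1], [])]

-- treeH0 := leaf

-- condition H1 >= 0, weight 4, scale 2025/29
def tsH1 : List (List ℕ × List ℕ × List ℕ) := [
    ([0, 2, 0], [9], []),
    ([2, 1, 0], [], [6]),
    ([4, 0, 0], [1], [])]

-- treeH1 := leaf

-- condition H2 >= 0, weight 4, scale 2025/29
def tsH2 : List (List ℕ × List ℕ × List ℕ) := [
    ([0, 2, 0], [9], []),
    ([2, 1, 0], [], [6]),
    ([4, 0, 0], [1], [])]

-- treeH2 := leaf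

end Vale.Agent.P154.D3
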