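import Vale.Agent.P154.Refl
import Vale.Agent.P154.Cert3Data
import Vale.Agent.P154.Cert4Data

/-! Kernel evaluation of the checks for the certificate data (helper file, generated). -/

namespace Vale.Agent.P154.Checks

open Vale.Agent.P154 Vale.Agent.P154.Refl Vale.Agent.P154.Refl.CT

set_option maxRecDepth 100000

def treeA3 : CT := (sd 3 leaf (sd 5 leaf (sy 0 2 leaf (sy 0 1 leaf (sy 0 2 leaf (sy 0 1 leaf (sy 0 2 leaf (sy 0 1 leaf (sy 0 2 leaf (sd 8 (sy 0 2 leaf leaf) (sy 0 2 leaf (sy 0 1 leaf (sy 0 2 leaf (sy 0 1 leaf (sy 0 2 leaf (sy 0 1 leaf (sy 0 2 leaf (sy 0 2 leaf (sd 10 leaf (sy 0 1 leaf leaf))))))))))))))))))))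

theorem okA3 : okts 3 4 4 4 D3.tsA = true := by decide +kernel

theorem chkA3 : chk 3 4 4 300 4 D3.tsA treeA3 0 12 scell3 = true := by
  decide +kernel

theorem noA3 : treeA3.noOut = true := by decide +kernel

def treef3 : CT := leaf

theorem okf3 : okts 3 1 0 4 D3.tsf = true := by decide +kernel

theorem chkf3 : chk 3 1 0 150 4 D3.tsf treef3 0 1 scell3 = true := by
  decide +kernel

theorem nof3 : treef3.noOut = true := by decide +kernel

def treeg3 : CT := (sy 0 2 leaf (sy 0 2 leaf (sy 0 1 leaf (sy 0 1 leaf leaf))))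

theorem okg3 : okts 3 1 0 6 D3.tsg = true := by decide +kernel

theorem chkg3 : chk 3 1 0 150 6 D3.tsg treeg3 0 1 scell3 = true := by
  decide +kernel

theorem nog3 : treeg3.noOut = true := by decide +kernel

def treeH03 : CT := leaf

theorem okH03 : okts 3 1 0 4 D3.tsH0 = true := by decide +kernel

theorem chkH03 : chk 3 1 0 150 4 D3.tsH0 treeH03 0 1 scell3 = true := by
  decide +kernel

theorem noH03 : treeH03.noOut = true := by decide +kernel

def treeH13 : CT := leaf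

theorem okH13 : okts 3 1 0 4 D3.tsH1 = true := by decide +kernel

theorem chkH13 : chk 3 1 0 150 4 D3.tsH1 treeH13 0 1 scell3 = true := by
  decide +kernel

theorem noH13 : treeH13.noOut = true := by decide +kernel

def treeH23 : CT := leaf

theorem okH23 : okts 3 1 0 4 D3.tsH2 = true := by decide +kernel

theorem chkH23 : chk 3 1 0 150 4 D3.tsH2 treeH23 0 1 scell3 = true := by
  decide +kernel

theorem noH23 : treeH23.noOut = true := by decide +kernel

theorem pairU3 : pairchk 3 120 6 6 D3.exps D3.CUp D3.CUm cell3 cell3 = true := by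
  decide +kernel

theorem pairP3 : pairchk 3 120 6 6 D3.exps D3.CPp D3.CPm cell3 cell3 = true := by
  decide +kernel

def treeA4 : CT := (sd 16 leaf (sd 28 (sy 0 3 (sd 22 leaf leaf) (sy 0 2 (sd 22 leaf leaf) (sd 19 leaf (sy 0 1 leaf (sy 0 3 leaf (sy 0 2 leaf (sy 0 3 (sd 23 leaf leaf) (sy 0 1 leaf (sy 0 2 leaf (sy 0 3 leaf leaf)))))))))) (sd 37 (sy 0 3 leaf (sy 0 2 leaf (sy 0 3 leaf (sy 0 1 leaf (sy 0 2 leaf (sy 0 3 leaf (sy 0 3 leaf (sy 0 2 leaf (sy 0 1 leaf (sy 0 3 leaf (sy 0 3 leaf (sd 30 leaf (sy 0 2 leaf (sy 0 1 leaf (sd 33 leaf (sy 0 2 leaf leaf)))))))))))))))) (sy 0 2 out (sy 0 3 out (sd 43 (sy 0 1 leaf (sy 0 3 leaf (sy 0 2 leaf (sy 0 1 leaf (sy 0 3 leaf (sy 0 2 leaf (sy 0 3 leaf (sy 0 1 leaf (sy 0 2 leaf (sy 0 3 leaf (sy 0 2 leaf (sy 0 3 leaf (sy 0 1 leaf (sy 0 2 leaf (sy 0 3 leaf (sy 0 1 leaf (sy 0 2 leaf (sy 0 3 leaf (sy 0 2 leaf (sd 40 leaf (sd 41 leaf (sd 42 leaf (sy 0 1 leaf (sy 0 3 leaf leaf))))))))))))))))))))))))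 (sy 0 1 out (sy 0 2 out (sy 0 3 out (sy 0 3 out (sd 48 (sy 0 1 leaf (sy 0 2 leaf (sy 0 3 leaf (sy 0 1 leaf (sy 0 2 leaf (sy 0 3 leaf (sy 0 2 leaf (sy 0 3 leaf (sy 0 1 leaf (sy 0 2 leaf (sy 0 3 leaf (sy 0 1 leaf (sy 0 2 leaf (sy 0 3 leaf (sy 0 2 leaf (sy 0 1 leaf (sy 0 3 leaf (sy 0 3 leaf (sy 0 2 leaf (sy 0 1 leaf (sy 0 3 leaf (sy 0 2 leaf leaf)))))))))))))))))))))) (sy 0 1 out (sy 0 2 out (sy 0 3 out (sd 52 (sy 0 1 leaf (sy 0 2 leaf (sy 0 3 leaf (sy 0 2 leaf (sy 0 1 leaf (sy 0 3 leaf (sy 0 2 leaf (sy 0 3 leaf (sy 0 1 leaf (sy 0 2 leaf (sy 0 3 leaf (sy 0 2 leaf (sy 0 1 leaf (sy 0 3 leaf (sy 0 3 leaf (sy 0 2 leaf (sy 0 1 leaf (sy 0 3 leaf (sy 0 2 leaf (sy 0 1 leaf (sy 0 3 leaf leaf))))))))))))))))))))) (sy 0 2 out (sy 0 1 out (sy 0 3 out (sy 0 2 out (sy 0 3 out (sy 0 1 leaf (sy 0 2 leaf (sy 0 3 leaf (sy 0 1 leaf (sy 0 2 leaf (sy 0 3 leaf (sy 0 2 leaf (sd 58 (sy 0 1 leaf (sy 0 3 leaf (sy 0 3 leaf (sy 0 2 leaf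 (sy 0 1 leaf (sy 0 3 leaf (sy 0 2 leaf leaf))))))) leaf))))))))))))))))))))))))))))

theorem okA4 : okts 4 16 6 6 D4.tsA = true := by decide +kernel

theorem chkA4 : chk 4 16 6 300 6 D4.tsA treeA4 0 64 scell4 = true := by
  decide +kernel

def treef4 : CT := leaf

theorem okf4 : okts 4 1 0 5 D4.tsf = true := by decide +kernel

theorem chkf4 : chk 4 1 0 150 5 D4.tsf treef4 0 1 scell4 = true := by
  decide +kernel

theorem nof4 : treef4.noOut = true := by decide +kernel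

def treeg4 : CT := (sy 0 2 (sy 1 3 leaf leaf) (sy 1 3 leaf (sy 0 1 leaf leaf)))

theorem okg4 : okts 4 1 0 8 D4.tsg = true := by decide +kernel

theorem chkg4 : chk 4 1 0 150 8 D4.tsg treeg4 0 1 scell4 = true := by
  decide +kernel

theorem nog4 : treeg4.noOut = true := by decide +kernel

def treeH04 : CT := leaf

theorem okH04 : okts 4 1 0 6 D4.tsH0 = true := by decide +kernel

theorem chkH04 : chk 4 1 0 150 6 D4.tsH0 treeH04 0 1 scell4 = true := by
  decide +kernel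

theorem noH04 : treeH04.noOut = true := by decide +kernel

def treeH14 : CT := leaf

theorem okH14 : okts 4 1 0 6 D4.tsH1 = true := by decide +kernel

theorem chkH14 : chk 4 1 0 150 6 D4.tsH1 treeH14 0 1 scell4 = true := by
  decide +kernel

theorem noH14 : treeH14.noOut = true := by decide +kernel

def treeH24 : CT := leaf

theorem okH24 : okts 4 1 0 6 D4.tsH2 = true := by decide +kernel

theorem chkH24 : chk 4 1 0 150 6 D4.tsH2 treeH24 0 1 scell4 = true := by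
  decide +kernel

theorem noH24 : treeH24.noOut = true := by decide +kernel

theorem pairU4 : pairchk 4 180 8 8 D4.exps D4.CUp D4.CUm cell4 cell4 = true := by
  decide +kernel

theorem pairP4 : pairchk 4 180 8 8 D4.exps D4.CPp D4.CPm cell4 cell4 = true := by
  decide +kernel

end Vale.Agent.P154.Checks
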