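import Vale.Agent.P154.Checks

/-! Real inequalities from the kernel checks (helper file). -/

namespace Vale.Agent.P154.Checks

open Vale.Agent.P154 Vale.Agent.P154.Refl

theorem A3 (y : Fin 3 → ℝ) (hy : ∀ i, 0 ≤ y i) (D : ℝ) (hD : 0 < D) (hD1 : D ≤ 3)
    (hD2 : D * (E3 y).getD 0 0 ^ 2 + 6 * (E3 y).getD 1 0 ≤ 3 * (E3 y).getD 0 0 ^ 2)
    (he : 0 < (E3 y).getD 0 0) : 0 ≤ PV D3.tsA D (E3 y) :=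
  main3 okA3 chkA3 y hy D hD (by push_cast; linarith) hD2 he

theorem A4 (y : Fin 4 → ℝ) (hy : ∀ i, 0 ≤ y i) (D : ℝ) (hD : 0 < D) (hD1 : D ≤ 4)
    (hD2 : D * (E4 y).getD 0 0 ^ 2 + 8 * (E4 y).getD 1 0 ≤ 4 * (E4 y).getD 0 0 ^ 2)
    (he : 0 < (E4 y).getD 0 0) : 0 ≤ PV D4.tsA D (E4 y) :=
  main4 okA4 chkA4 y hy D hD (by push_cast; linarith) hD2 he

theorem f3 (y : Fin 3 → ℝ) (hy : ∀ i, 0 ≤ y i) : 0 ≤ PV D3.tsf 1 (E3 y) :=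
  one3 okf3 nof3 chkf3 y hy 1 one_pos (by norm_num)

theorem g3 (y : Fin 3 → ℝ) (hy : ∀ i, 0 ≤ y i) : 0 ≤ PV D3.tsg 1 (E3 y) :=
  one3 okg3 nog3 chkg3 y hy 1 one_pos (by norm_num)

theorem H03 (y : Fin 3 → ℝ) (hy : ∀ i, 0 ≤ y i) : 0 ≤ PV D3.tsH0 1 (E3 y) :=
  one3 okH03 noH03 chkH03 y hy 1 one_pos (by norm_num)

theorem H13 (y : Fin 3 → ℝ) (hy : ∀ i, 0 ≤ y i) : 0 ≤ PV D3.tsH1 1 (E3 y) :=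
  one3 okH13 noH13 chkH13 y hy 1 one_pos (by norm_num)

theorem H23 (y : Fin 3 → ℝ) (hy : ∀ i, 0 ≤ y i) : 0 ≤ PV D3.tsH2 1 (E3 y) :=
  one3 okH23 noH23 chkH23 y hy 1 one_pos (by norm_num)

theorem f4 (y : Fin 4 → ℝ) (hy : ∀ i, 0 ≤ y i) : 0 ≤ PV D4.tsf 1 (E4 y) :=
  one4 okf4 nof4 chkf4 y hy 1 one_pos (by norm_num)

theorem g4 (y : Fin 4 → ℝ) (hy : ∀ i, 0 ≤ y i) : 0 ≤ PV D4.tsg 1 (E4 y) :=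
  one4 okg4 nog4 chkg4 y hy 1 one_pos (by norm_num)

theorem H04 (y : Fin 4 → ℝ) (hy : ∀ i, 0 ≤ y i) : 0 ≤ PV D4.tsH0 1 (E4 y) :=
  one4 okH04 noH04 chkH04 y hy 1 one_pos (by norm_num)

theorem H14 (y : Fin 4 → ℝ) (hy : ∀ i, 0 ≤ y i) : 0 ≤ PV D4.tsH1 1 (E4 y) :=
  one4 okH14 noH14 chkH14 y hy 1 one_pos (by norm_num)

theorem H24 (y : Fin 4 → ℝ) (hy : ∀ i, 0 ≤ y i) : 0 ≤ PV D4.tsH2 1 (E4 y) :=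
  one4 okH24 noH24 chkH24 y hy 1 one_pos (by norm_num)

theorem U3 (y z : Fin 3 → ℝ) (hy : ∀ i, 0 ≤ y i) (hz : ∀ i, 0 ≤ z i) :
    biv D3.exps D3.CUm (E3 y) (E3 z) ≤ biv D3.exps D3.CUp (E3 y) (E3 z) := pair3 pairU3 y z hy hz

theorem P3 (y z : Fin 3 → ℝ) (hy : ∀ i, 0 ≤ y i) (hz : ∀ i, 0 ≤ z i) :
    biv D3.exps D3.CPm (E3 y) (E3 z) ≤ biv D3.exps D3.CPp (E3 y) (E3 z) := pair3 pairP3 y z hy hz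

theorem U4 (y z : Fin 4 → ℝ) (hy : ∀ i, 0 ≤ y i) (hz : ∀ i, 0 ≤ z i) :
    biv D4.exps D4.CUm (E4 y) (E4 z) ≤ biv D4.exps D4.CUp (E4 y) (E4 z) := pair4 pairU4 y z hy hz

theorem P4 (y z : Fin 4 → ℝ) (hy : ∀ i, 0 ≤ y i) (hz : ∀ i, 0 ≤ z i) :
    biv D4.exps D4.CPm (E4 y) (E4 z) ≤ biv D4.exps D4.CPp (E4 y) (E4 z) := pair4 pairP4 y z hy hz

/-- example: the `f` inequality spelled out -/
example (y : Fin 3 → ℝ) (hy : ∀ i, 0 ≤ y i) (e1 e2 e3 : ℝ) (h1 : e1 = y 0 + y 1 + y 2)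
    (h2 : e2 = y 0 * y 1 + y 0 * y 2 + y 1 * y 2) (h3 : e3 = y 0 * y 1 * y 2) :
    171 * (e1 * e3) + 11 * (e1 ^ 2 * e2) ≤ 10 * e1 ^ 4 := by
  have h := f3 y hy
  simp only [PV, pvs, mon, D3.tsf, E3, ← h1, ← h2, ← h3, if_true, Bool.false_eq_true,
    if_false, hor] at h
  norm_num at h
  linarith

end Vale.Agent.P154.Checks
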