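import Vale.Agent.P154.Avg4
import Vale.Agent.P154.AvgGen
import Vale.Agent.P154.Cert4Data

/-! The averaged certificate identities, q = 4 (generated). -/

set_option linter.style.longLine false
set_option linter.unusedSimpArgs false
set_option linter.unusedVariables false

namespace Vale.Agent.P154

open Finset

/-- polynomial upper bound -/
noncomputable def LU4 (D n2 n3 n4 : ℝ) : ℝ :=
    -(63/4 * n2)
    + 3 * D
    + 69/2 * D * n2
    - 651/16 * D ^ 2 * n2
    + 111/4 * D ^ 3 * n2
    - 87/8 * D ^ 4 * n2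
    + 9/4 * D ^ 5 * n2
    - 3/16 * D ^ 6 * n2

/-- polynomial lower bound -/
noncomputable def LP4 (D n2 n3 n4 : ℝ) : ℝ :=
    -(9531/65536)
    - 7972937/512000 * n4
    + 3718287/1024000 * n3
    - 635243/512000 * n3 ^ 2
    - 4933057/819200 * n2
    - 4407169/512000 * n2 * n4
    - 907119/51200 * n2 * n3
    - 1400343/128000 * n2 ^ 2
    + 5325467/512000 * n2 ^ 3
    - 5798633/8192000 * D
    + 1086437/16000 * D * n4
    + 17832017/1024000 * D * n3
    + 75439/51200 * D * n3 ^ 2
    - 64203/6400 * D * n2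
    + 764237/51200 * D * n2 * n4
    + 3636313/128000 * D * n2 * n3
    - 737673/256000 * D * n2 ^ 2
    - 648991/51200 * D * n2 ^ 3
    + 601057/65536 * D ^ 2
    - 391211/4096 * D ^ 2 * n4
    - 31345/1024 * D ^ 2 * n3
    - 1543/4096 * D ^ 2 * n3 ^ 2
    + 1821871/32768 * D ^ 2 * n2
    - 27221/4096 * D ^ 2 * n2 * n4
    - 30431/2048 * D ^ 2 * n2 * n3
    + 66857/4096 * D ^ 2 * n2 ^ 2
    + 14071/4096 * D ^ 2 * n2 ^ 3
    - 956005/65536 * D ^ 3
    + 111349/2048 * D ^ 3 * n4
    + 61623/4096 * D ^ 3 * n3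
    - 1085/16 * D ^ 3 * n2
    + 1315/512 * D ^ 3 * n2 * n3
    - 6925/1024 * D ^ 3 * n2 ^ 2
    + 775739/65536 * D ^ 4
    - 21521/2048 * D ^ 4 * n4
    - 14527/8192 * D ^ 4 * n3
    + 1133061/32768 * D ^ 4 * n2
    + 1937/4096 * D ^ 4 * n2 ^ 2
    - 349471/65536 * D ^ 5
    - 1927/8192 * D ^ 5 * n3
    - 15997/2048 * D ^ 5 * n2
    + 86979/65536 * D ^ 6
    + 21125/32768 * D ^ 6 * n2
    - 11135/65536 * D ^ 7
    + 143/16384 * D ^ 8

/-- certificate polynomial in the normalised elementary symmetric functions -/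
noncomputable def psi4 (E2 E3 E4 : ℝ) : ℝ :=
    1401/1000
    + 681/1000 * E4
    + 3471/1000 * E3
    - 18/125 * E3 ^ 2
    - 171/200 * E2
    - 327/1000 * E2 * E4
    - 1599/1000 * E2 * E3
    - 3789/1000 * E2 ^ 2
    + 1161/1000 * E2 ^ 3

/-- certificate polynomial in the normalised elementary symmetric functions -/
noncomputable def f4 (E2 E3 E4 : ℝ) : ℝ :=
    117/500
    + 29/250 * E4
    - 399/1000 * E3
    + 967/1000 * E2
    - 63/200 * E2 * E3
    - 603/1000 * E2 ^ 2

/-- certificate polynomial in the normalised elementary symmetric functions -/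
noncomputable def g4 (E2 E3 E4 : ℝ) : ℝ :=
    17/50
    + 363/100 * E4
    + 153/50 * E3
    + 153/20 * E3 ^ 2
    - 99/100 * E2
    - 21/4 * E2 * E4
    - 57/5 * E2 * E3
    - 63/100 * E2 ^ 2
    + 459/100 * E2 ^ 3

/-- certificate polynomial in the normalised elementary symmetric functions -/
noncomputable def u4 (E2 _E3 _E4 : ℝ) : ℝ :=
    3
    - 3 * E2

/-- upper bound polynomial of a vector -/
noncomputable def LUx4 (x : Fin 4 → ℝ) : ℝ := LU4 (s41 x / 4) (s42 x / 6) (s43 x / 4) (s44 x)

/-- lower bound polynomial of a vector -/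
noncomputable def LPx4 (x : Fin 4 → ℝ) : ℝ := LP4 (s41 x / 4) (s42 x / 6) (s43 x / 4) (s44 x)

/-- certificate function of a vector -/
noncomputable def psix4 (x : Fin 4 → ℝ) : ℝ := psi4 (s42 x / 6) (s43 x / 4) (s44 x)

/-- certificate function of a vector -/
noncomputable def fx4 (x : Fin 4 → ℝ) : ℝ := f4 (s42 x / 6) (s43 x / 4) (s44 x)

/-- certificate function of a vector -/
noncomputable def gx4 (x : Fin 4 → ℝ) : ℝ := g4 (s42 x / 6) (s43 x / 4) (s44 x)

/-- certificate function of a vector -/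
noncomputable def ux4 (x : Fin 4 → ℝ) : ℝ := u4 (s42 x / 6) (s43 x / 4) (s44 x)

theorem avgL4 (l r : List ℤ) (h : isZL (addL (vecMat r T4) (smulL (-24) l)) = true)
    (A B : Fin 4 → ℝ) (hA : s41 A = 4) (hB : s41 B = 4) :
    24 * 4 ^ 16 * ∑ p : Equiv.Perm (Fin 4), evL l (evec4 (fun i => A i * B (p i)))
      = bil (diagForm (scl 16 8 r mw4) V4) (vvec4 A) (vvec4 B) := by
  have h1 : ∀ x : Fin 4 → ℝ, 24 * evL l (evec4 x) = evL r (mw4.map (fun e => Msym e.1 x)) := by
    intro x
    have := evL_isZL _ h (evec4 x)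
    rw [evL_addL, evL_smulL, evL_vecMat, ← Mvec4] at this
    push_cast at this
    linarith
  have h2 := scl_diag A B 4 8 r mw4 (by decide)
  have h3 := Vvec4 A
  have h4 := Vvec4 B
  rw [hA] at h3
  rw [hB] at h4
  push_cast at h2
  rw [h3, h4, ← bil_diagForm, ← sum_ev_M] at h2
  rw [h2, mul_comm (24:ℝ), mul_assoc, Finset.mul_sum]
  congr 1
  exact Finset.sum_congr rfl fun p _ => h1 _

/-- coefficients -/
def lU4 : List ℤ := [0, 98304, 0, -344064, 0, 188416, 0, 0, -55552, 0, 0, 0, 0, 9472, 0, 0, 0, 0, 0, -928, 0, 0, 0, 0, 0, 0, 0, 0, 48, 0, 0, 0, 0, 0, 0, 0, 0, 0, 0, -1]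

/-- coefficients -/
def rU4 : List ℤ := [0, 393216, 0, -2064384, 0, 2260992, 2260992, 0, -666624, -666624, -3333120, -666624, 0, 113664, 340992, 795648, 1363968, 1022976, 0, -11136, -44544, -100224, -33408, -489984, -178176, -133632, -434304, 0, 576, 2880, 6336, 5760, 40320, 14400, 28800, 46080, 97920, 51840, 0, -12, -72, -156, -180, -1224, -432, -120, -2280, -1800, -3780, -2520, -2640, -8280, -1080]

lemma lU4_eq (x : Fin 4 → ℝ) : evL lU4 (evec4 x) = 131072 * LUx4 x := by
  simp only [lU4, evec4, evL_cons, evL_nil_left, LUx4, LU4]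
  push_cast
  ring

/-- coefficients -/
def lP4 : List ℤ := [-527026176000, -641282420736, 2077252992000, -3637044264960, -825988320000, -1514738810880, 3289702367232, 167559624000, 2098795392000, 3944156848128, -1101274546176, -56431555117056, -18871434000, -639959040000, -1733253120000, -72516206592, 61517435240448, -2675202785280, 1174216500, 81580392000, 212969088000, 102692352000, -21632403456000, 1072392339456, 174504902656, -5198908096512, -281011175424, -37580625, -4607136000, -6275664000, -10636800000, 3078577152000, -140226048000, -53165342720, 2253826621440, 83429498880, 0, 0, 482625, 95062500, -208116000, 185952000, -148753152000, 6059520000, 3602176000, -250868736000, -5332608000]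

/-- coefficients -/
def rP4 : List ℤ := [-527026176000, -2565129682944, 8309011968000, 3104770314240, -3303953280000, -47912445250560, -24841775941632, 670238496000, 33228406656000, 24610043890944, 170955602445312, -18055599321600, -75485736000, -8811794520000, -26173291999104, -80825129918208, -176999298698880, 88310721782016, 4696866000, 1063508292000, 5359526010000, 14253645780000, 5357137731936, 118117793794176, -37333116038784, 39375874655520, -143576472035232, -150322500, -58442404500, -413540077500, -957673755000, -1589549095140, -14568606186840, 6594451953720, -13408127598480, -24446357196120, 79948106871120, 65723062160040, 1930500, 1187082000, 9238086000, 17119530000, 69587382000, 560593548000, -385135680000, 61530586500, 1700108940000, 1464940962000, -6802657146000, 2430990660000, -5586904464000, -26884655820000, -5199580029000]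

lemma lP4_eq (x : Fin 4 → ℝ) : evL lP4 (evec4 x) = 3623878656000 * LPx4 x := by
  simp only [lP4, evec4, evL_cons, evL_nil_left, LPx4, LP4]
  push_cast
  ring

/-- coefficients -/
def uv4 : List ℤ := [3, -8]

lemma uv4_eq (x : Fin 4 → ℝ) (hx : s41 x = 4) : evL uv4 (vvec4 x) = 65536 * ux4 x := by
  simp only [uv4, vvec4, evL_cons, evL_nil_left, ux4, u4, hx]
  push_cast
  ring

/-- coefficients -/
def psiv4 : List ℤ := [1401, -2280, 55536, 174336, -26944, -68224, -36864, -223232, 22016]

lemma psiv4_eq (x : Fin 4 → ℝ) (hx : s41 x = 4) : evL psiv4 (vvec4 x) = 65536000 * psix4 x := by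
  simp only [psiv4, vvec4, evL_cons, evL_nil_left, psix4, psi4, hx]
  push_cast
  ring

/-- coefficients -/
def fv4 : List ℤ := [351, 3868, -9576, 44544, -6432, -20160]

lemma fv4_eq (x : Fin 4 → ℝ) (hx : s41 x = 4) : evL fv4 (vvec4 x) = 98304000 * fx4 x := by
  simp only [fv4, vvec4, evL_cons, evL_nil_left, fx4, f4, hx]
  push_cast
  ring

/-- coefficients -/
def gv4 : List ℤ := [17, -132, 2448, 46464, -224, -24320, 97920, -179200, 4352]

lemma gv4_eq (x : Fin 4 → ℝ) (hx : s41 x = 4) : evL gv4 (vvec4 x) = 3276800 * gx4 x := by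
  simp only [gv4, vvec4, evL_cons, evL_nil_left, gx4, g4, hx]
  push_cast
  ring

/-- coefficients -/
def uuv4 : List ℤ := [9, -48, 0, 0, 64]

lemma uuv4_eq (x : Fin 4 → ℝ) (hx : s41 x = 4) : evL uuv4 (vvec4 x) = 65536 * ux4 x ^ 2 := by
  simp only [uuv4, vvec4, evL_cons, evL_nil_left, ux4, u4, hx]
  push_cast
  ring

lemma onev4_eq (x : Fin 4 → ℝ) (hx : s41 x = 4) : evL [1] (vvec4 x) = 65536 := by
  simp only [vvec4, evL_cons, evL_nil_left, hx]
  push_cast
  norm_num

theorem finU4 (A B : Fin 4 → ℝ) (hA : s41 A = 4) (hB : s41 B = 4) :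
    ux4 A + ux4 B - (psix4 A * fx4 B + fx4 A * psix4 B)
      - 1/500 * (ux4 A * ux4 B * (ux4 A + ux4 B))
      - (1 / 24) * ∑ p : Equiv.Perm (Fin 4), LUx4 (fun i => A i * B (p i))
      = (1 / 3221225472000000) * (bil (toZ D4.CUp) (vvec4 A) (vvec4 B) - bil (toZ D4.CUm) (vvec4 A) (vvec4 B)) := by
  have key := bil_isZM (
      addM (smulM (1179648000000) (addM (outer uv4 [1]) (outer [1] uv4))) (
      addM (smulM (-786432) (addM (outer psiv4 fv4) (outer fv4 psiv4))) (
      addM (smulM (-2359296000) (addM (outer uuv4 uv4) (outer uv4 uuv4))) (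
      addM (smulM (-15625) (diagForm (scl 16 8 rU4 mw4) V4)) (
      addM (smulM (-1572864) (toZ D4.CUp)) (
      smulM (1572864) (toZ D4.CUm)))))))
    (by decide +kernel) (vvec4 A) (vvec4 B)
  simp only [bil_addM, bil_smulM, bil_outer, ← avgL4 lU4 rU4 (by decide +kernel) A B hA hB,
    lU4_eq, ← Finset.mul_sum,
    uv4_eq A hA, uv4_eq B hB, uuv4_eq A hA, uuv4_eq B hB, psiv4_eq A hA, psiv4_eq B hB,
    fv4_eq A hA, fv4_eq B hB, gv4_eq A hA, gv4_eq B hB, onev4_eq A hA, onev4_eq B hB] at key
  push_cast at key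
  linear_combination (1 / 5066549580791808000000) * key

theorem finP4 (A B : Fin 4 → ℝ) (hA : s41 A = 4) (hB : s41 B = 4) :
    (1 / 24) * ∑ p : Equiv.Perm (Fin 4), LPx4 (fun i => A i * B (p i))
      - (psix4 A * gx4 B + gx4 A * psix4 B)
      = (1 / 17812088369971200000) * (bil (toZ D4.CPp) (vvec4 A) (vvec4 B) - bil (toZ D4.CPm) (vvec4 A) (vvec4 B)) := by
  have key := bil_isZM (
      addM (smulM (25) (diagForm (scl 16 8 rP4 mw4) V4)) (
      addM (smulM (-1043677052928) (addM (outer psiv4 gv4) (outer gv4 psiv4))) (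
      addM (smulM (-12582912) (toZ D4.CPp)) (
      smulM (12582912) (toZ D4.CPm)))))
    (by decide +kernel) (vvec4 A) (vvec4 B)
  simp only [bil_addM, bil_smulM, bil_outer, ← avgL4 lP4 rP4 (by decide +kernel) A B hA hB,
    lP4_eq, ← Finset.mul_sum,
    uv4_eq A hA, uv4_eq B hB, uuv4_eq A hA, uuv4_eq B hB, psiv4_eq A hA, psiv4_eq B hB,
    fv4_eq A hA, fv4_eq B hB, gv4_eq A hA, gv4_eq B hB, onev4_eq A hA, onev4_eq B hB] at key
  push_cast at key
  linear_combination (1 / 224127940495571052134400000) * key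

end Vale.Agent.P154
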