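import Vale.Agent.P154.Common

/-! Pointwise minorants for q = 4 (generated). -/

namespace Vale.Agent.P154.Q4

noncomputable def E2 (A : Fin 4 → ℝ) : ℝ := (A 0 * A 1 + A 0 * A 2 + A 0 * A 3 + A 1 * A 2 + A 1 * A 3 + A 2 * A 3) / 6

noncomputable def E3 (A : Fin 4 → ℝ) : ℝ := (A 0 * A 1 * A 2 + A 0 * A 1 * A 3 + A 0 * A 2 * A 3 + A 1 * A 2 * A 3) / 4

noncomputable def E4 (A : Fin 4 → ℝ) : ℝ := (A 0 * A 1 * A 2 * A 3)

noncomputable def w (A : Fin 4 → ℝ) : ℝ := (1 / 4) * ∑ i, (A i - 1) ^ 3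

noncomputable def x (A : Fin 4 → ℝ) : ℝ := (1 / 4) * ∑ i, (A i - 1) ^ 4

noncomputable def psiU (u w x : ℝ) : ℝ := w - (177 / 500) * x + (419 / 1000) * u * w - (221 / 1000) * u ^ 2 - (2 / 125) * w ^ 2 - (109 / 1000) * u * x + (7 / 40) * u ^ 3

noncomputable def fU (u w x : ℝ) : ℝ := (3 / 50) * u ^ 2 + (7 / 200) * u * w - (29 / 250) * x + (2 / 3) * u - (1 / 12) * w

noncomputable def gU (u w x : ℝ) : ℝ := 1 - (201 / 100) * u - (143 / 100) * u ^ 2 + (333 / 100) * u ^ 3 - (3 / 2) * u * w - (7 / 4) * u * x + (4 / 25) * w + (17 / 20) * w ^ 2 + (81 / 50) * x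

noncomputable def psi (A : Fin 4 → ℝ) : ℝ := psiU (uFn 4 A) (w A) (x A)

noncomputable def f (A : Fin 4 → ℝ) : ℝ := fU (uFn 4 A) (w A) (x A)

noncomputable def g (A : Fin 4 → ℝ) : ℝ := gU (uFn 4 A) (w A) (x A)

noncomputable def psiE (b c d : ℝ) : ℝ :=
    (1401 / 1000) + (681 / 1000) * d + (3471 / 1000) * c - (18 / 125) * c ^ 2 - (171 / 200) * b
    - (327 / 1000) * b * d - (1599 / 1000) * b * c - (3789 / 1000) * b ^ 2
    + (1161 / 1000) * b ^ 3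

noncomputable def fE (b c d : ℝ) : ℝ :=
    (117 / 500) + (29 / 250) * d - (399 / 1000) * c + (967 / 1000) * b - (63 / 200) * b * c
    - (603 / 1000) * b ^ 2

noncomputable def gE (b c d : ℝ) : ℝ :=
    (17 / 50) + (363 / 100) * d + (153 / 50) * c + (153 / 20) * c ^ 2 - (99 / 100) * b
    - (21 / 4) * b * d - (57 / 5) * b * c - (63 / 100) * b ^ 2 + (459 / 100) * b ^ 3

theorem u_eq (A : Fin 4 → ℝ) (h : ∑ i, A i = 4) : uFn 4 A = 3 * (1 - E2 A) := by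
  rw [Fin.sum_univ_four] at h
  have h3 : A 3 = 4 - A 0 - A 1 - A 2 := by linarith
  simp only [uFn, E2, Fin.sum_univ_four, h3]
  push_cast
  ring

theorem w_eq (A : Fin 4 → ℝ) (h : ∑ i, A i = 4) : w A = 3 * (2 - 3 * E2 A + E3 A) := by
  rw [Fin.sum_univ_four] at h
  have h3 : A 3 = 4 - A 0 - A 1 - A 2 := by linarith
  simp only [w, E2, E3, Fin.sum_univ_four, h3]
  ring

theorem x_eq (A : Fin 4 → ℝ) (h : ∑ i, A i = 4) :
    x A = 2 * (3 * (1 - E2 A)) ^ 2 - (E4 A - 4 * E3 A + 6 * E2 A - 3) := by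
  rw [Fin.sum_univ_four] at h
  have h3 : A 3 = 4 - A 0 - A 1 - A 2 := by linarith
  simp only [x, E2, E3, E4, Fin.sum_univ_four, h3]
  ring

theorem psi_eq (A : Fin 4 → ℝ) (h : ∑ i, A i = 4) : psi A = psiE (E2 A) (E3 A) (E4 A) := by
  simp only [psi, psiU, psiE, u_eq A h, w_eq A h, x_eq A h]
  ring

theorem f_eq (A : Fin 4 → ℝ) (h : ∑ i, A i = 4) : f A = fE (E2 A) (E3 A) (E4 A) := by
  simp only [f, fU, fE, u_eq A h, w_eq A h, x_eq A h]
  ring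

theorem g_eq (A : Fin 4 → ℝ) (h : ∑ i, A i = 4) : g A = gE (E2 A) (E3 A) (E4 A) := by
  simp only [g, gU, gE, u_eq A h, w_eq A h, x_eq A h]
  ring

/-- polynomial upper bound for the chi-square part -/
noncomputable def mD (D : ℝ) : ℝ :=
    (21 / 4) - (23 / 2) * D + (217 / 16) * D ^ 2 - (37 / 4) * D ^ 3 + (29 / 8) * D ^ 4
    - (3 / 4) * D ^ 5 + (1 / 16) * D ^ 6

noncomputable def LU (D b : ℝ) : ℝ := 3 * (D - b * mD D)

noncomputable def LP (D b c d : ℝ) : ℝ :=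
    -(9531 / 65536) - (7972937 / 512000) * d + (3718287 / 1024000) * c
    - (635243 / 512000) * c ^ 2 - (4933057 / 819200) * b - (4407169 / 512000) * b * d
    - (907119 / 51200) * b * c - (1400343 / 128000) * b ^ 2 + (5325467 / 512000) * b ^ 3
    - (5798633 / 8192000) * D + (1086437 / 16000) * D * d + (17832017 / 1024000) * D * c
    + (75439 / 51200) * D * c ^ 2 - (64203 / 6400) * D * b + (764237 / 51200) * D * b * d
    + (3636313 / 128000) * D * b * c - (737673 / 256000) * D * b ^ 2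
    - (648991 / 51200) * D * b ^ 3 + (601057 / 65536) * D ^ 2 - (391211 / 4096) * D ^ 2 * d
    - (31345 / 1024) * D ^ 2 * c - (1543 / 4096) * D ^ 2 * c ^ 2
    + (1821871 / 32768) * D ^ 2 * b - (27221 / 4096) * D ^ 2 * b * d
    - (30431 / 2048) * D ^ 2 * b * c + (66857 / 4096) * D ^ 2 * b ^ 2
    + (14071 / 4096) * D ^ 2 * b ^ 3 - (956005 / 65536) * D ^ 3 + (111349 / 2048) * D ^ 3 * d
    + (61623 / 4096) * D ^ 3 * c - (1085 / 16) * D ^ 3 * b + (1315 / 512) * D ^ 3 * b * c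
    - (6925 / 1024) * D ^ 3 * b ^ 2 + (775739 / 65536) * D ^ 4 - (21521 / 2048) * D ^ 4 * d
    - (14527 / 8192) * D ^ 4 * c + (1133061 / 32768) * D ^ 4 * b
    + (1937 / 4096) * D ^ 4 * b ^ 2 - (349471 / 65536) * D ^ 5 - (1927 / 8192) * D ^ 5 * c
    - (15997 / 2048) * D ^ 5 * b + (86979 / 65536) * D ^ 6 + (21125 / 32768) * D ^ 6 * b
    - (11135 / 65536) * D ^ 7 + (143 / 16384) * D ^ 8

noncomputable def Qa (D b c d : ℝ) : ℝ :=
    (9531 / 65536) + (157267 / 65536) * D + (681 / 1000) * D * d + (3471 / 1000) * D * c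
    - (18 / 125) * D * c ^ 2 - (171 / 200) * D * b - (327 / 1000) * D * b * d
    - (1599 / 1000) * D * b * c - (3789 / 1000) * D * b ^ 2 + (1161 / 1000) * D * b ^ 3
    - (148027 / 32768) * D ^ 2 + (681 / 500) * D ^ 2 * d + (3471 / 500) * D ^ 2 * c
    - (36 / 125) * D ^ 2 * c ^ 2 + (141289 / 32768) * D ^ 2 * b - (327 / 500) * D ^ 2 * b * d
    - (1599 / 500) * D ^ 2 * b * c - (3789 / 500) * D ^ 2 * b ^ 2
    + (1161 / 500) * D ^ 2 * b ^ 3 + (103315 / 32768) * D ^ 3 + (2043 / 1000) * D ^ 3 * d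
    + (55557 / 8192) * D ^ 3 * c - (54 / 125) * D ^ 3 * c ^ 2 + (319657 / 16384) * D ^ 3 * b
    - (981 / 1000) * D ^ 3 * b * d - (4797 / 1000) * D ^ 3 * b * c
    - (11367 / 1000) * D ^ 3 * b ^ 2 + (3483 / 1000) * D ^ 3 * b ^ 3 - (66425 / 65536) * D ^ 4
    + (74941 / 4096) * D ^ 4 * d - (88411 / 8192) * D ^ 4 * c - (72 / 125) * D ^ 4 * c ^ 2
    - (171133 / 8192) * D ^ 4 * b - (327 / 250) * D ^ 4 * b * d - (1599 / 250) * D ^ 4 * b * c
    - (4317 / 1024) * D ^ 4 * b ^ 2 + (1161 / 250) * D ^ 4 * b ^ 3 + (9991 / 65536) * D ^ 5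
    - (68307 / 2048) * D ^ 5 * d + (18381 / 8192) * D ^ 5 * c - (18 / 25) * D ^ 5 * c ^ 2
    + (106851 / 16384) * D ^ 5 * b - (327 / 200) * D ^ 5 * b * d
    + (19911 / 2048) * D ^ 5 * b * c + (11913 / 2048) * D ^ 5 * b ^ 2
    + (1161 / 200) * D ^ 5 * b ^ 3 - (143 / 16384) * D ^ 6 + (21521 / 2048) * D ^ 6 * d
    + (1927 / 8192) * D ^ 6 * c + (1543 / 4096) * D ^ 6 * c ^ 2 - (21125 / 32768) * D ^ 6 * b
    + (27221 / 4096) * D ^ 6 * b * d - (1315 / 512) * D ^ 6 * b * c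
    - (1937 / 4096) * D ^ 6 * b ^ 2 - (14071 / 4096) * D ^ 6 * b ^ 3

theorem LP_id (D b c d : ℝ) :
    D * psiE b c d - LP D (D ^ 2 * b) (D ^ 3 * c) (D ^ 4 * d) = (D - 1) ^ 2 * Qa D b c d := by
  simp only [psiE, LP, Qa]
  ring

theorem LP_zero : LP 0 0 0 0 = - Qa 0 0 0 0 := by
  simp only [LP, Qa]
  ring

theorem mD_le {D : ℝ} (h0 : 0 < D) (h1 : D ≤ 4) : mD D ≤ 1 / D := by
  rw [le_div_iff₀ h0]
  have : 1 - mD D * D = (D - 1) ^ 4 * ((D - 2) ^ 2 * (4 - D) / 16) := by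
    simp only [mD]
    ring
  have h2 : 0 ≤ (D - 1) ^ 4 * ((D - 2) ^ 2 * (4 - D) / 16) := by
    have : 0 ≤ 4 - D := by linarith
    positivity
  linarith

end Vale.Agent.P154.Q4
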